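import Mathlib.Data.Real.Basic
import Mathlib.Tactic.Ring
import Mathlib.Tactic.Linarith
import Mathlib.Tactic.LinearCombination
import Mathlib.Tactic.Positivity
import Mathlib.Tactic.FieldSimp
import Mathlib.Tactic.NormNum
import Mathlib.Tactic.FinCases
import Mathlib.Data.Fin.VecNotation

/-!
A small kernel-friendly positivity checker for polynomials in two variables with integer
coefficients: a polynomial is nonnegative on a half-open rectangle as soon as all coefficients of
its pullback to the closed quadrant are nonnegative.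
-/

namespace Vale.Agent.P237.Four.Checker

/-- Coefficient lists in one variable, constant term first. -/
abbrev P1 := List ℤ

/-- Coefficient lists in two variables: the outer list is in the first variable. -/
abbrev P2 := List (List ℤ)

/-- Evaluation in one variable. -/
noncomputable def ev : P1 → ℝ → ℝ
  | [], _ => 0
  | c :: l, x => (c : ℝ) + x * ev l x

/-- Evaluation in two variables. -/
noncomputable def ev2 : P2 → ℝ → ℝ → ℝ
  | [], _, _ => 0
  | r :: P, x, y => ev r y + x * ev2 P x y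

/-- Sum in one variable. -/
def add1 : P1 → P1 → P1
  | [], l => l
  | a :: k, [] => a :: k
  | a :: k, b :: l => Int.add a b :: add1 k l

/-- Scalar multiple in one variable. -/
def smul1 (c : ℤ) : P1 → P1
  | [] => []
  | a :: k => Int.mul c a :: smul1 c k

/-- Product in one variable. -/
def mul1 : P1 → P1 → P1
  | [], _ => []
  | a :: k, l => add1 (smul1 a l) (0 :: mul1 k l)

/-- Product with the linear polynomial `a + b X`, given the preceding coefficient. -/
def lin1 (a b : ℤ) : ℤ → P1 → P1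
  | prev, [] => [Int.mul b prev]
  | prev, r :: k => Int.add (Int.mul a r) (Int.mul b prev) :: lin1 a b r k

/-- Sum in two variables. -/
def add2 : P2 → P2 → P2
  | [], l => l
  | a :: k, [] => a :: k
  | a :: k, b :: l => add1 a b :: add2 k l

/-- Scalar multiple in two variables. -/
def smul2 (c : ℤ) : P2 → P2
  | [] => []
  | a :: k => smul1 c a :: smul2 c k

/-- Product with a polynomial in the second variable. -/
def rmul (r : P1) : P2 → P2
  | [] => []
  | a :: k => mul1 r a :: rmul r k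

/-- Product in two variables (cheap when the left factor is small). -/
def mul2 : P2 → P2 → P2
  | [], _ => []
  | a :: k, l => add2 (rmul a l) ([] :: mul2 k l)

theorem ev_add1 : ∀ (k l : P1) (x : ℝ), ev (add1 k l) x = ev k x + ev l x
  | [], l, x => by simp [add1, ev]
  | a :: k, [], x => by simp [add1, ev]
  | a :: k, b :: l, x => by
      simp only [add1, ev, Int.add_def, ev_add1 k l x]
      push_cast
      ring

theorem ev_smul1 (c : ℤ) : ∀ (k : P1) (x : ℝ), ev (smul1 c k) x = c * ev k x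
  | [], x => by simp [smul1, ev]
  | a :: k, x => by
      simp only [smul1, ev, Int.mul_def, ev_smul1 c k x]
      push_cast
      ring

theorem ev_mul1 : ∀ (k l : P1) (x : ℝ), ev (mul1 k l) x = ev k x * ev l x
  | [], l, x => by simp [mul1, ev]
  | a :: k, l, x => by
      simp only [mul1, ev, ev_add1, ev_smul1, ev_mul1 k l x]
      push_cast
      ring

theorem ev_lin1 (a b : ℤ) : ∀ (prev : ℤ) (k : P1) (x : ℝ),
    ev (lin1 a b prev k) x = b * prev + (a + b * x) * ev k x
  | prev, [], x => by simp [lin1, ev, Int.mul_def]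
  | prev, r :: k, x => by
      simp only [lin1, ev, Int.add_def, Int.mul_def, ev_lin1 a b r k x]
      push_cast
      ring

theorem ev2_add2 : ∀ (k l : P2) (x y : ℝ), ev2 (add2 k l) x y = ev2 k x y + ev2 l x y
  | [], l, x, y => by simp [add2, ev2]
  | a :: k, [], x, y => by simp [add2, ev2]
  | a :: k, b :: l, x, y => by
      simp only [add2, ev2, ev2_add2 k l x y, ev_add1]
      ring

theorem ev2_smul2 (c : ℤ) : ∀ (k : P2) (x y : ℝ), ev2 (smul2 c k) x y = c * ev2 k x y
  | [], x, y => by simp [smul2, ev2]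
  | a :: k, x, y => by
      simp only [smul2, ev2, ev2_smul2 c k x y, ev_smul1]
      ring

theorem ev2_rmul (r : P1) : ∀ (k : P2) (x y : ℝ), ev2 (rmul r k) x y = ev r y * ev2 k x y
  | [], x, y => by simp [rmul, ev2]
  | a :: k, x, y => by
      simp only [rmul, ev2, ev2_rmul r k x y, ev_mul1]
      ring

theorem ev2_mul2 : ∀ (k l : P2) (x y : ℝ), ev2 (mul2 k l) x y = ev2 k x y * ev2 l x y
  | [], l, x, y => by simp [mul2, ev2]
  | a :: k, l, x, y => by
      simp only [mul2, ev2, ev2_add2, ev2_rmul, ev2_mul2 k l x y, ev]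
      ring

/-- The list of coefficients of `(D + D X) ^ n`. -/
def qpow (D : ℤ) : ℕ → P1
  | 0 => [1]
  | n + 1 => lin1 D D 0 (qpow D n)

theorem ev_qpow (D : ℤ) : ∀ (n : ℕ) (x : ℝ), ev (qpow D n) x = ((D : ℝ) * (1 + x)) ^ n
  | 0, x => by simp [qpow, ev]
  | n + 1, x => by
      simp only [qpow, ev_lin1, ev_qpow D n x]
      push_cast
      ring

/-- The pullback of a polynomial along `X ↦ (a + b X) / (D (1 + X))`, cleared of denominators. -/
def mob1 (a b D : ℤ) : P1 → P1
  | [] => []
  | c :: l => add1 (smul1 c (qpow D (l.length + 1))) (lin1 a b 0 (mob1 a b D l))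

theorem ev_mob1 (a b D : ℤ) (t x : ℝ) (h : t * ((D : ℝ) * (1 + x)) = a + b * x) :
    ∀ (l : P1), ev (mob1 a b D l) x = ((D : ℝ) * (1 + x)) ^ l.length * ev l t
  | [] => by simp [mob1, ev]
  | c :: l => by
      simp only [mob1, ev, ev_add1, ev_smul1, ev_lin1, ev_qpow, ev_mob1 a b D t x h l,
        List.length_cons]
      rw [← h]
      push_cast
      ring

/-- A list padded with zeros to length at least `n`. -/
def pad : ℕ → P1 → P1
  | 0, l => l
  | n + 1, [] => 0 :: pad n []
  | n + 1, a :: l => a :: pad n l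

theorem ev_pad : ∀ (n : ℕ) (l : P1) (x : ℝ), ev (pad n l) x = ev l x
  | 0, l, x => by simp [pad]
  | n + 1, [], x => by simp [pad, ev, ev_pad n [] x]
  | n + 1, a :: l, x => by simp [pad, ev, ev_pad n l x]

theorem length_pad : ∀ (n : ℕ) (l : P1), l.length ≤ n → (pad n l).length = n
  | 0, [], _ => by simp [pad]
  | 0, a :: l, h => by simp at h
  | n + 1, [], _ => by simp [pad, length_pad n [] (Nat.zero_le _)]
  | n + 1, a :: l, h => by
      simp only [pad, List.length_cons]
      rw [length_pad n l (by simpa using h)]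

/-- The largest length of a row. -/
def width : P2 → ℕ
  | [] => 0
  | r :: P => max r.length (width P)

/-- The pullback in the second variable. -/
def mobY (a b D : ℤ) (n : ℕ) : P2 → P2
  | [] => []
  | r :: P => mob1 a b D (pad n r) :: mobY a b D n P

theorem ev2_mobY (a b D : ℤ) (n : ℕ) (s y Y : ℝ)
    (h : y * ((D : ℝ) * (1 + Y)) = a + b * Y) :
    ∀ (P : P2), width P ≤ n →
      ev2 (mobY a b D n P) s Y = ((D : ℝ) * (1 + Y)) ^ n * ev2 P s y
  | [], _ => by simp [mobY, ev2]
  | r :: P, hn => by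
      have h1 : r.length ≤ n := le_trans (le_max_left _ _) hn
      have h2 : width P ≤ n := le_trans (le_max_right _ _) hn
      simp only [mobY, ev2, ev_mob1 a b D y Y h, length_pad n r h1, ev_pad,
        ev2_mobY a b D n s y Y h P h2]
      ring

/-- The rows of the outer product of two lists. -/
def outer (r : P1) : P1 → P2
  | [] => []
  | q :: l => smul1 q r :: outer r l

theorem ev2_outer (r : P1) : ∀ (l : P1) (x y : ℝ), ev2 (outer r l) x y = ev l x * ev r y
  | [], x, y => by simp [outer, ev2, ev]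
  | q :: l, x, y => by
      simp only [outer, ev2, ev, ev_smul1, ev2_outer r l x y]
      ring

/-- Product with `a + b X` in the first variable, given the preceding row. -/
def lin2 (a b : ℤ) : P1 → P2 → P2
  | prev, [] => [smul1 b prev]
  | prev, r :: k => add1 (smul1 a r) (smul1 b prev) :: lin2 a b r k

theorem ev2_lin2 (a b : ℤ) : ∀ (prev : P1) (k : P2) (x y : ℝ),
    ev2 (lin2 a b prev k) x y = b * ev prev y + (a + b * x) * ev2 k x y
  | prev, [], x, y => by simp [lin2, ev2, ev_smul1]
  | prev, r :: k, x, y => by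
      simp only [lin2, ev2, ev_add1, ev_smul1, ev2_lin2 a b r k x y]
      ring

/-- The pullback in the first variable. -/
def mobT (a b D : ℤ) : P2 → P2
  | [] => []
  | r :: P => add2 (outer r (qpow D (P.length + 1))) (lin2 a b [] (mobT a b D P))

theorem ev2_mobT (a b D : ℤ) (t X Y : ℝ) (h : t * ((D : ℝ) * (1 + X)) = a + b * X) :
    ∀ (P : P2), ev2 (mobT a b D P) X Y = ((D : ℝ) * (1 + X)) ^ P.length * ev2 P t Y
  | [] => by simp [mobT, ev2]
  | r :: P => by
      simp only [mobT, ev2, ev2_add2, ev2_outer, ev2_lin2, ev_qpow, ev,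
        ev2_mobT a b D t X Y h P, List.length_cons]
      rw [← h]
      ring

/-- All coefficients in one row are nonnegative. -/
def nonneg1 : P1 → Bool
  | [] => true
  | .ofNat _ :: k => nonneg1 k
  | .negSucc _ :: _ => false

/-- All coefficients are nonnegative. -/
def nonneg2 : P2 → Bool
  | [] => true
  | a :: k => nonneg1 a && nonneg2 k

theorem ev_nonneg : ∀ (k : P1) (x : ℝ), 0 ≤ x → nonneg1 k = true → 0 ≤ ev k x
  | [], x, _, _ => by simp [ev]
  | .ofNat n :: k, x, hx, h => by
      simp only [nonneg1] at h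
      have := ev_nonneg k x hx h
      have ha : (0 : ℝ) ≤ ((Int.ofNat n : ℤ) : ℝ) := by exact Int.cast_nonneg (Int.natCast_nonneg n)
      simp only [ev]
      positivity
  | .negSucc n :: k, x, hx, h => by simp [nonneg1] at h

theorem ev2_nonneg : ∀ (k : P2) (x y : ℝ), 0 ≤ x → 0 ≤ y → nonneg2 k = true → 0 ≤ ev2 k x y
  | [], x, y, _, _, _ => by simp [ev2]
  | a :: k, x, y, hx, hy, h => by
      simp only [nonneg2, Bool.and_eq_true] at h
      have h1 := ev2_nonneg k x y hx hy h.2
      have h2 := ev_nonneg a y hy h.1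
      simp only [ev2]
      positivity

/-- A rectangle `[ta/D, tb/D) × [ya/D, yb/D)`. -/
structure Box where
  D : ℤ
  ta : ℤ
  tb : ℤ
  ya : ℤ
  yb : ℤ

/-- Membership of a real point in a rectangle. -/
def Box.mem (B : Box) (t y : ℝ) : Prop :=
  (0 : ℝ) < B.D ∧ (B.ta : ℝ) ≤ t * B.D ∧ t * B.D < B.tb ∧ (B.ya : ℝ) ≤ y * B.D ∧ y * B.D < B.yb

/-- The greatest common divisor of three integers. -/
def gcd3 (a b c : ℤ) : ℤ := ((Nat.gcd (Nat.gcd a.natAbs b.natAbs) c.natAbs : ℕ) : ℤ)

/-- The certificate of nonnegativity on a rectangle, its ends in lowest terms. -/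
def nonnegOn (B : Box) (P : P2) : Bool :=
  decide (0 < gcd3 B.ta B.tb B.D) && decide (0 < gcd3 B.ya B.yb B.D) &&
  decide (gcd3 B.ta B.tb B.D * (B.ta / gcd3 B.ta B.tb B.D) = B.ta ∧
    gcd3 B.ta B.tb B.D * (B.tb / gcd3 B.ta B.tb B.D) = B.tb ∧
    gcd3 B.ta B.tb B.D * (B.D / gcd3 B.ta B.tb B.D) = B.D) &&
  decide (gcd3 B.ya B.yb B.D * (B.ya / gcd3 B.ya B.yb B.D) = B.ya ∧
    gcd3 B.ya B.yb B.D * (B.yb / gcd3 B.ya B.yb B.D) = B.yb ∧
    gcd3 B.ya B.yb B.D * (B.D / gcd3 B.ya B.yb B.D) = B.D) &&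
  nonneg2 (mobT (B.ta / gcd3 B.ta B.tb B.D) (B.tb / gcd3 B.ta B.tb B.D)
    (B.D / gcd3 B.ta B.tb B.D)
    (mobY (B.ya / gcd3 B.ya B.yb B.D) (B.yb / gcd3 B.ya B.yb B.D) (B.D / gcd3 B.ya B.yb B.D)
      (width P) P))

theorem nonnegOn_sound {B : Box} {P : P2} (h : nonnegOn B P = true) {t y : ℝ}
    (hm : B.mem t y) : 0 ≤ ev2 P t y := by
  simp only [nonnegOn, Bool.and_eq_true, decide_eq_true_eq] at h
  obtain ⟨⟨⟨⟨hg, hh⟩, ⟨et1, et2, et3⟩⟩, ⟨ey1, ey2, ey3⟩⟩, h⟩ := h
  generalize gcd3 B.ta B.tb B.D = g at hg et1 et2 et3 h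
  generalize gcd3 B.ya B.yb B.D = e at hh ey1 ey2 ey3 h
  generalize B.ta / g = a at et1 h
  generalize B.tb / g = b at et2 h
  generalize B.D / g = D at et3 h
  generalize B.ya / e = c at ey1 h
  generalize B.yb / e = d at ey2 h
  generalize B.D / e = G at ey3 h
  obtain ⟨hD, h1, h2, h3, h4⟩ := hm
  have hg' : (0 : ℝ) < g := by exact_mod_cast hg
  have hh' : (0 : ℝ) < e := by exact_mod_cast hh
  have rt1 : (B.ta : ℝ) = g * a := by exact_mod_cast et1.symm
  have rt2 : (B.tb : ℝ) = g * b := by exact_mod_cast et2.symm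
  have rt3 : (B.D : ℝ) = g * D := by exact_mod_cast et3.symm
  have ry1 : (B.ya : ℝ) = e * c := by exact_mod_cast ey1.symm
  have ry2 : (B.yb : ℝ) = e * d := by exact_mod_cast ey2.symm
  have ry3 : (B.D : ℝ) = e * G := by exact_mod_cast ey3.symm
  have hD1 : (0 : ℝ) < D := pos_of_mul_pos_right (rt3 ▸ hD) hg'.le
  have hG : (0 : ℝ) < G := pos_of_mul_pos_right (ry3 ▸ hD) hh'.le
  rw [rt1, rt3, mul_left_comm, mul_le_mul_iff_right₀ hg'] at h1
  rw [rt2, rt3, mul_left_comm, mul_lt_mul_iff_right₀ hg'] at h2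
  rw [ry1, ry3, mul_left_comm, mul_le_mul_iff_right₀ hh'] at h3
  rw [ry2, ry3, mul_left_comm, mul_lt_mul_iff_right₀ hh'] at h4
  have hT : (0 : ℝ) < b - t * D := by linarith
  have hY : (0 : ℝ) < d - y * G := by linarith
  set X := (t * D - a) / (b - t * D) with hX
  set Z := (y * G - c) / (d - y * G) with hZ
  have hX0 : 0 ≤ X := div_nonneg (by linarith) hT.le
  have hZ0 : 0 ≤ Z := div_nonneg (by linarith) hY.le
  have eX : t * ((D : ℝ) * (1 + X)) = a + b * X := by
    rw [hX]; field_simp; ring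
  have eZ : y * ((G : ℝ) * (1 + Z)) = c + d * Z := by
    rw [hZ]; field_simp; ring
  have h0 := ev2_nonneg _ X Z hX0 hZ0 h
  rw [ev2_mobT _ _ _ t X Z eX, ev2_mobY _ _ _ _ t y Z eZ P le_rfl] at h0
  have p1 : (0 : ℝ) < ((D : ℝ) * (1 + X)) ^
      (mobY c d G (width P) P).length := by positivity
  have p2 : (0 : ℝ) < ((G : ℝ) * (1 + Z)) ^ width P := by positivity
  exact (mul_nonneg_iff_of_pos_left p2).mp ((mul_nonneg_iff_of_pos_left p1).mp h0)

end Vale.Agent.P237.Four.Checker
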