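import Vale.Agent.P237.Four.Defs
import Vale.Agent.P237.Four.Checker

/-!
Soundness of a rectangle-tree certificate for `Certificate`. On each rectangle the root of the
slope constraint is replaced by a polynomial bound, the excess by one of its lower bounds and a
secant, and the profile of the ball by two linear bounds; what remains is polynomial positivity.
-/

namespace Vale.Agent.P237.Four.Checker

open Real

/-- Integer coefficients of `100000 M`. -/
def M5 : P2 := [[], [-47022, 369013, -405540, 83442, 21828],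
  [-357406, 98696, 361949, -160331], [470771, -610884, 145949], [-6376, 81145], [-44993]]

/-- Integer coefficients of `100000 Mt`. -/
def Mt5 : P2 := [[-47022, 369013, -405540, 83442, 21828],
  [-714812, 197392, 723898, -320662], [1412313, -1832652, 437847], [-25504, 324580], [-224965]]

/-- Integer coefficients of `100000 My`. -/
def My5 : P2 := [[], [369013, -811080, 250326, 87312], [98696, 723898, -480993],
  [-610884, 291898], [81145]]

/-- `1 - t ^ 2`. -/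
def qP : P2 := [[1], [], [-1]]

/-- `t ^ 2 + y ^ 2 - 1`. -/
def sP : P2 := [[-1, 0, 1], [], [1]]

/-- `100000 (4 t M + s Mt)`. -/
def HP : P2 := add2 (mul2 [[], [4]] M5) (mul2 sP Mt5)

/-- `1600000` times the slope factor `4 y M + s My`. -/
def SP : P2 := smul2 16 (add2 (mul2 [[0, 4]] M5) (mul2 sP My5))

/-- The part free of the ball's profile, times `1600000`. -/
def G0 : P2 := smul2 16
  (add2 (mul2 [[100000, 0, 0], [], [50000]] (add2 qP [[0, 0, 1]]))
    (add2 (smul2 (-10000) (add2 [[0, 0, 0, 0, 1]] (add2 (mul2 [[0, 0, 1]] qP) (mul2 qP qP))))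
      (mul2 [[0, 1]] HP)))

/-- The coefficient of the ball's profile, times `1600000`. -/
def G1 : P2 := smul2 16
  (add2 (mul2 [[0, 100000], [], [0, 50000]] [[1]])
    (add2 (smul2 (-10000) (mul2 [[0, 1]] (add2 qP [[0, 0, 1]]))) HP))

/-- Numerators of the lower bounds for the excess. -/
def lamP : ℕ → P2
  | 1 => [[], [-3, 0, 3], [], [1]]
  | 2 => [[], [-2, 1, 1], [], [1]]
  | 3 => [[1690, -780, -845], [-4719, 2028, 2197], [], [2197]]
  | _ => []

/-- Denominators of the lower bounds for the excess. -/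
def lamD : ℕ → ℤ
  | 1 => 2
  | 2 => 2
  | 3 => 4394
  | _ => 1

/-- The parameters on one rectangle. -/
structure Leaf where
  /-- which lower bound for the excess is used -/
  li : ℕ
  /-- the secant `(A + B L) / W` -/
  A : ℤ
  B : ℤ
  W : ℤ
  /-- the lower bound `(e0 + e1 t) / E` for the profile of the ball -/
  e0 : ℤ
  e1 : ℤ
  E : ℤ
  /-- the upper bound `(uc - ua t) / ub` for the profile of the ball -/
  ua : ℤ
  ub : ℤ
  uc : ℤ
  /-- the constant `cn / cd` in the bound for the root -/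
  cn : ℤ
  cd : ℤ
  /-- whether the lower root of the slope constraint is used -/
  low : Bool
  /-- the multipliers of the constraint `0 <= t ^ 2 + y ^ 2 - 1` -/
  mf : ℤ
  mp : ℤ
  mp' : ℤ
  mm : ℤ
  mm' : ℤ

/-- `W dL` times the secant. -/
def secP (l : Leaf) : P2 := add2 [[l.A * lamD l.li]] (smul2 l.B (lamP l.li))

/-- The part free of the ball's profile of the scaled value at slope zero. -/
def UP (l : Leaf) : P2 :=
  add2 (mul2 [[0, 2120250]] (secP l)) (smul2 (-(l.W * lamD l.li)) G0)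

/-- The coefficient of the ball's profile in the scaled value at slope zero. -/
def VP (l : Leaf) : P2 := add2 (smul2 2120250 (secP l)) (smul2 (-(l.W * lamD l.li)) G1)

/-- The scaled value at slope zero for the linear profile `(a + b t) / e`. -/
def aEnd (l : Leaf) (a b e : ℤ) : P2 := add2 (smul2 e (UP l)) (mul2 [[a], [b]] (VP l))

/-- The scaled slope factor for the linear profile `(a + b t) / e`. -/
def sEnd (l : Leaf) (a b e : ℤ) : P2 :=
  smul2 (l.W * lamD l.li) (mul2 [[a, e], [b]] SP)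

/-- The bound for the root, times `2 cn cd`. -/
def rootP (l : Leaf) : P2 :=
  add2 [[l.cn * l.cn], [0, 2 * l.cn * l.cd]] (smul2 (l.cd * l.cd) sP)

/-- The condition at the upper root. -/
def upP (l : Leaf) (a b e m : ℤ) : P2 :=
  add2 (add2 (mul2 (smul2 (2 * l.cn * l.cd) qP) (aEnd l a b e))
    (mul2 (rootP l) (sEnd l a b e))) (smul2 (-m) sP)

/-- The condition at the lower end of the slopes. -/
def lowP (l : Leaf) (a b e m : ℤ) : P2 :=
  if l.low then
    add2 (add2 (mul2 (rootP l) (aEnd l a b e))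
      (mul2 (smul2 (2 * l.cn * l.cd) [[1, 0, -1]]) (sEnd l a b e))) (smul2 (-m) sP)
  else add2 (aEnd l a b e) (smul2 (-m) sP)

/-- The condition that the secant is below the concave factor. -/
def secCond (l : Leaf) : P2 :=
  add2
    (add2 (smul2 (l.W * lamD l.li) (add2 [[4 * lamD l.li]] (smul2 3 (lamP l.li))))
      (smul2 (-1) (mul2 (add2 [[4 * lamD l.li]] (lamP l.li)) (secP l))))
    (smul2 (-l.mf) sP)

/-- The checks on one rectangle. -/
def checkLeaf (B : Box) (l : Leaf) : Bool :=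
  decide (0 < l.W) && decide (0 < l.E) && decide (0 < l.ub) && decide (0 < l.uc) &&
    decide (0 < l.cn) && decide (0 < l.cd) &&
    decide (0 ≤ l.mf) && decide (0 ≤ l.mp) && decide (0 ≤ l.mp') &&
    decide (0 ≤ l.mm) && decide (0 ≤ l.mm') &&
    decide (l.ua * l.ua + l.ub * l.ub = l.uc * l.uc) &&
    decide (l.li = 3 → 5 * B.D ≤ 13 * B.ta) &&
    decide (l.low = true → B.yb ≤ B.D) &&
    nonnegOn B
      [[l.E * l.E - l.e0 * l.e0], [-(2 * l.e0 * l.e1)], [-(l.E * l.E) - l.e1 * l.e1]] &&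
    nonnegOn B (secCond l) &&
    nonnegOn B (upP l l.e0 l.e1 l.E l.mp) && nonnegOn B (upP l l.uc (-l.ua) l.ub l.mp') &&
    nonnegOn B (lowP l l.e0 l.e1 l.E l.mm) && nonnegOn B (lowP l l.uc (-l.ua) l.ub l.mm')

/-- A subdivision of a rectangle. -/
inductive Tree where
  | leaf : Leaf → Tree
  | empty : Tree
  | cutT : ℤ → Tree → Tree → Tree
  | cutY : ℤ → Tree → Tree → Tree

/-- The checks on a subdivided rectangle. -/
def checkTree (B : Box) : Tree → Bool
  | .leaf l => checkLeaf B l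
  | .empty => decide (B.tb * B.tb + B.yb * B.yb ≤ B.D * B.D)
  | .cutT m a b => checkTree { B with tb := m } a && checkTree { B with ta := m } b
  | .cutY m a b => checkTree { B with yb := m } a && checkTree { B with ya := m } b

theorem ev2_M5 (t y : ℝ) : ev2 M5 t y = 100000 * M t y := by
  simp only [M5, ev2, ev, M]
  push_cast
  ring

theorem ev2_Mt5 (t y : ℝ) : ev2 Mt5 t y = 100000 * Mt t y := by
  simp only [Mt5, ev2, ev, Mt]
  push_cast
  ring

theorem ev2_My5 (t y : ℝ) : ev2 My5 t y = 100000 * My t y := by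
  simp only [My5, ev2, ev, My]
  push_cast
  ring

theorem ev2_qP (t y : ℝ) : ev2 qP t y = 1 - t ^ 2 := by
  simp only [qP, ev2, ev]; push_cast; ring

theorem ev2_sP (t y : ℝ) : ev2 sP t y = t ^ 2 + y ^ 2 - 1 := by
  simp only [sP, ev2, ev]; push_cast; ring

/-- The slope factor. -/
noncomputable def sF (t y : ℝ) : ℝ := 4 * y * M t y + (t ^ 2 + y ^ 2 - 1) * My t y

/-- The factor from the derivative in `t`. -/
noncomputable def hF (t y : ℝ) : ℝ := 4 * t * M t y + (t ^ 2 + y ^ 2 - 1) * Mt t y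

theorem ev2_HP (t y : ℝ) : ev2 HP t y = 100000 * hF t y := by
  simp only [HP, ev2_add2, ev2_mul2, ev2_M5, ev2_Mt5, ev2_sP, hF, ev2, ev]
  push_cast; ring

theorem ev2_SP (t y : ℝ) : ev2 SP t y = 1600000 * sF t y := by
  simp only [SP, ev2_smul2, ev2_add2, ev2_mul2, ev2_M5, ev2_My5, ev2_sP, sF, ev2, ev]
  push_cast; ring

theorem ev2_G0 (t y : ℝ) : ev2 G0 t y = 1600000 * ((1 + t ^ 2 / 2) * (y ^ 2 + (1 - t ^ 2)) -
    1 / 10 * (y ^ 4 + y ^ 2 * (1 - t ^ 2) + (1 - t ^ 2) ^ 2) + y * hF t y) := by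
  simp only [G0, ev2_smul2, ev2_add2, ev2_mul2, ev2_HP, ev2_qP, ev2, ev]
  push_cast; ring

theorem ev2_G1 (t y : ℝ) : ev2 G1 t y = 1600000 * ((1 + t ^ 2 / 2) * y -
    1 / 10 * (y * (y ^ 2 + (1 - t ^ 2))) + hF t y) := by
  simp only [G1, ev2_smul2, ev2_add2, ev2_mul2, ev2_HP, ev2_qP, ev2, ev]
  push_cast; ring

/-- The lower bounds for the excess. -/
noncomputable def lam : ℕ → ℝ → ℝ → ℝ
  | 1, t, y => 3 / 2 * (t * y ^ 2 - ballI t)
  | 2, t, y => 3 / 2 * (t * (1 + y + y ^ 2) / 3 - ballI t)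
  | 3, t, y => 3 / 2 * ((t - 5 / 13) * (144 / 169 + 12 / 13 * y + y ^ 2) / 3 -
      (ballI t - ballI (5 / 13)))
  | _, _, _ => 0

theorem lamD_pos : ∀ i, 0 < lamD i
  | 0 => by decide
  | 1 => by decide
  | 2 => by decide
  | 3 => by decide
  | (_ + 4) => by simp [lamD]

theorem ev2_lamP : ∀ (i : ℕ) (t y : ℝ), ev2 (lamP i) t y = lamD i * lam i t y
  | 0, t, y => by simp [lamP, lam, ev2]
  | 1, t, y => by simp only [lamP, lamD, lam, ballI, ev2, ev]; push_cast; ring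
  | 2, t, y => by simp only [lamP, lamD, lam, ballI, ev2, ev]; push_cast; ring
  | 3, t, y => by simp only [lamP, lamD, lam, ballI, ev2, ev]; push_cast; ring
  | (_ + 4), t, y => by simp [lamP, lam, ev2]

theorem lam_gt : ∀ (i : ℕ) {t y : ℝ}, 0 < t → t < 1 → 0 ≤ y → (i = 3 → 5 / 13 ≤ t) →
    -4 < lam i t y
  | 0, t, y, _, _, _, _ => by simp [lam]
  | 1, t, y, h0, h1, hy, _ => by
      simp only [lam, ballI]
      nlinarith [mul_nonneg h0.le (sq_nonneg y), pow_pos h0 3]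
  | 2, t, y, h0, h1, hy, _ => by
      simp only [lam, ballI]
      nlinarith [mul_nonneg h0.le (sq_nonneg y), pow_pos h0 3, mul_nonneg h0.le hy]
  | 3, t, y, h0, h1, hy, h3 => by
      have h5 : 5 / 13 ≤ t := h3 rfl
      simp only [lam, ballI]
      nlinarith [mul_nonneg (sub_nonneg.2 h5) (sq_nonneg y), pow_pos h0 3,
        mul_nonneg (sub_nonneg.2 h5) hy]
  | (_ + 4), t, y, _, _, _, _ => by simp [lam]

/-- The scaled value at slope zero, affine in the profile `p` of the ball. -/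
noncomputable def aVal (l : Leaf) (t y p : ℝ) : ℝ := ev2 (UP l) t y + p * ev2 (VP l) t y

/-- The scaled slope factor, affine in the profile `p` of the ball. -/
noncomputable def sVal (l : Leaf) (t y p : ℝ) : ℝ :=
  (l.W * lamD l.li : ℝ) * (y + p) * ev2 SP t y

theorem ev2_aEnd (l : Leaf) (a b e : ℤ) (t y : ℝ) (he : (e : ℝ) ≠ 0) :
    ev2 (aEnd l a b e) t y = e * aVal l t y ((a + b * t) / e) := by
  simp only [aEnd, aVal, ev2_add2, ev2_smul2, ev2_mul2, ev2, ev]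
  field_simp
  ring

theorem ev2_sEnd (l : Leaf) (a b e : ℤ) (t y : ℝ) (he : (e : ℝ) ≠ 0) :
    ev2 (sEnd l a b e) t y = e * sVal l t y ((a + b * t) / e) := by
  simp only [sEnd, sVal, ev2_smul2, ev2_mul2, ev2, ev]
  push_cast
  field_simp
  ring

/-- An affine function nonnegative at both ends of an interval is nonnegative inside. -/
theorem affine_between {u v a b p : ℝ} (ha : 0 ≤ u + a * v) (hb : 0 ≤ u + b * v)
    (h1 : a ≤ p) (h2 : p ≤ b) : 0 ≤ u + p * v := by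
  rcases le_total 0 v with hv | hv
  · nlinarith [mul_le_mul_of_nonneg_right h1 hv]
  · nlinarith [mul_le_mul_of_nonpos_right h2 hv]

/-- The two facts about an admissible slope used on every rectangle. -/
theorem slope_bounds {t y k : ℝ} (ht0 : 0 < t) (ht1 : t < 1) (hy : 0 ≤ y)
    (hs : 0 ≤ t ^ 2 + y ^ 2 - 1) (hk : 0 ≤ k) (h : √(1 + k ^ 2) ≤ y + t * k)
    {cn cd : ℝ} (hcn : 0 < cn) (hcd : 0 < cd) :
    2 * cn * cd * (1 - t ^ 2) * k ≤
        2 * cn * cd * (t * y) + cd ^ 2 * (t ^ 2 + y ^ 2 - 1) + cn ^ 2 ∧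
      (y ≤ 1 → 2 * cn * cd * (1 - y ^ 2) ≤
        k * (2 * cn * cd * (t * y) + cd ^ 2 * (t ^ 2 + y ^ 2 - 1) + cn ^ 2)) := by
  have hq : 0 < 1 - t ^ 2 := by nlinarith
  have h2 : 1 + k ^ 2 ≤ (y + t * k) ^ 2 := by
    calc 1 + k ^ 2 = √(1 + k ^ 2) ^ 2 := (sq_sqrt (by positivity)).symm
      _ ≤ (y + t * k) ^ 2 := pow_le_pow_left₀ (sqrt_nonneg _) h 2
  set D := √(t ^ 2 + y ^ 2 - 1) with hD
  have hD0 : 0 ≤ D := sqrt_nonneg _
  have hD2 : D ^ 2 = t ^ 2 + y ^ 2 - 1 := sq_sqrt hs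
  have hx : ((1 - t ^ 2) * k - t * y) ^ 2 ≤ D ^ 2 := by
    rw [hD2]; nlinarith [mul_le_mul_of_nonneg_left h2 hq.le]
  obtain ⟨hx1, hx2⟩ := abs_le.1 (abs_le_of_sq_le_sq hx hD0)
  have hcD : 2 * cn * cd * D ≤ cd ^ 2 * (t ^ 2 + y ^ 2 - 1) + cn ^ 2 := by
    rw [← hD2]; nlinarith [sq_nonneg (cd * D - cn)]
  have hc : 0 ≤ 2 * cn * cd := by positivity
  refine ⟨by nlinarith [mul_le_mul_of_nonneg_left hx2 hc], fun hy1 => ?_⟩
  have hP : 0 ≤ t * y + D := by positivity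
  have h3 : (1 - t ^ 2) * (1 - y ^ 2) ≤ (1 - t ^ 2) * (k * (t * y + D)) := by
    have := mul_le_mul_of_nonneg_right (show t * y - D ≤ (1 - t ^ 2) * k by linarith) hP
    nlinarith
  have h4 := le_of_mul_le_mul_left h3 hq
  nlinarith [mul_le_mul_of_nonneg_left h4 hc, mul_le_mul_of_nonneg_left hcD hk]

theorem drop_sound {B : Box} {P : P2} {m : ℤ} (hm0 : 0 ≤ m)
    (h : nonnegOn B (add2 P (smul2 (-m) sP)) = true) {t y : ℝ} (hm : B.mem t y)
    (hs : 0 ≤ t ^ 2 + y ^ 2 - 1) : 0 ≤ ev2 P t y := by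
  have h' := nonnegOn_sound h hm
  rw [ev2_add2, ev2_smul2, ev2_sP] at h'
  have hm1 : (0 : ℝ) ≤ (m : ℝ) := by exact_mod_cast hm0
  push_cast at h'
  nlinarith [mul_nonneg hm1 hs]

theorem lower_profile {B : Box} {a b e : ℤ} (he : (0 : ℝ) < e)
    (h : nonnegOn B [[e * e - a * a], [-(2 * a * b)], [-(e * e) - b * b]] = true)
    {t y p : ℝ} (hm : B.mem t y) (hp0 : 0 ≤ p) (hp2 : p ^ 2 = 1 - t ^ 2) :
    ((a : ℝ) + b * t) / e ≤ p := by
  rw [div_le_iff₀ he]
  have h' := nonnegOn_sound h hm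
  simp only [ev2, ev] at h'
  push_cast at h'
  have h2 : ((a : ℝ) + b * t) ^ 2 ≤ (p * e) ^ 2 := by
    rw [mul_pow, hp2]; linarith
  exact (abs_le.1 (abs_le_of_sq_le_sq h2 (by positivity))).2

theorem upper_profile {a b c : ℤ} (hb : (0 : ℝ) < b) (hc : (0 : ℝ) < c)
    (habc : a * a + b * b = c * c) {t p : ℝ} (hp2 : p ^ 2 = 1 - t ^ 2) :
    p ≤ ((c : ℝ) + ((-a : ℤ) : ℝ) * t) / b := by
  rw [le_div_iff₀ hb]
  push_cast
  have hP : (a : ℝ) * a + (b : ℝ) * b = (c : ℝ) * c := by exact_mod_cast habc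
  have h1 : (((c : ℝ) * t - a) ^ 2 + (c * p - b) ^ 2) =
      2 * c * (c - a * t - p * b) := by
    have h : (c : ℝ) ^ 2 * p ^ 2 = c ^ 2 * (1 - t ^ 2) := by rw [hp2]
    linear_combination hP + h
  have h2 : 0 ≤ 2 * (c : ℝ) * (c - a * t - p * b) := by
    rw [← h1]; positivity
  have h3 := nonneg_of_mul_nonneg_right h2 (by positivity)
  linarith

/-- The secant. -/
noncomputable def sec (l : Leaf) (t y : ℝ) : ℝ := ((l.A : ℝ) + l.B * lam l.li t y) / l.W

theorem sec_le {B : Box} {l : Leaf} (hW : (0 : ℝ) < l.W) (hmf : 0 ≤ l.mf)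
    (h : nonnegOn B (secCond l) = true) {t y X : ℝ} (hm : B.mem t y)
    (hs : 0 ≤ t ^ 2 + y ^ 2 - 1) (hL : -4 < lam l.li t y) (hLX : lam l.li t y ≤ X) :
    sec l t y ≤ (4 + 3 * X) / (4 + X) := by
  have hdL : (0 : ℝ) < (lamD l.li : ℝ) := by exact_mod_cast lamD_pos l.li
  have h' := drop_sound hmf h hm hs
  simp only [secP, ev2_add2, ev2_smul2, ev2_mul2, ev2_lamP, ev2, ev] at h'
  push_cast at h'
  set L := lam l.li t y with hLd
  have h4 : ((l.A : ℝ) + l.B * L) * (4 + L) ≤ (4 + 3 * L) * l.W := by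
    have hd2 : (0 : ℝ) < (lamD l.li : ℝ) ^ 2 := by positivity
    refine le_of_mul_le_mul_left ?_ hd2
    linarith
  calc sec l t y ≤ (4 + 3 * L) / (4 + L) := by
        rw [sec, ← hLd, div_le_div_iff₀ hW (by linarith)]; linarith
    _ ≤ (4 + 3 * X) / (4 + X) := by
        rw [div_le_div_iff₀ (by linarith) (by linarith)]; linarith

/-- The value at slope zero, times `y + p`. -/
noncomputable def a0 (φ t y p : ℝ) : ℝ :=
  2827 / 3200 * (3 / 2) * φ * (y + p) - ((1 + t ^ 2 / 2) * (y ^ 2 + y * p + p ^ 2) -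
    1 / 10 * (y ^ 4 + y ^ 3 * p + y ^ 2 * p ^ 2 + y * p ^ 3 + p ^ 4) + hF t y * (y + p))

theorem aVal_eq (l : Leaf) (hW : (0 : ℝ) < l.W) {t y p : ℝ} (hp2 : p ^ 2 = 1 - t ^ 2) :
    aVal l t y p = 1600000 * ((l.W : ℝ) * lamD l.li) * a0 (sec l t y) t y p := by
  have e3 : p ^ 3 = p * (1 - t ^ 2) := by rw [← hp2]; ring
  have e4 : p ^ 4 = (1 - t ^ 2) ^ 2 := by rw [← hp2]; ring
  simp only [aVal, UP, VP, secP, ev2_add2, ev2_smul2, ev2_mul2, ev2_lamP, ev2_G0, ev2_G1,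
    ev2, ev, a0, sec]
  rw [e3, e4, hp2]
  push_cast
  field_simp
  ring

theorem ev2_rootP (l : Leaf) (t y : ℝ) : ev2 (rootP l) t y =
    2 * (l.cn : ℝ) * l.cd * (t * y) + (l.cd : ℝ) ^ 2 * (t ^ 2 + y ^ 2 - 1) +
      (l.cn : ℝ) ^ 2 := by
  simp only [rootP, ev2_add2, ev2_smul2, ev2_sP, ev2, ev]; push_cast; ring

/-- A nonnegative combination of the two affine values at both linear profiles is nonnegative at
the profile of the ball. -/
theorem combine (l : Leaf) {t y p pl pu C D : ℝ}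
    (h1 : 0 ≤ C * aVal l t y pl + D * sVal l t y pl)
    (h2 : 0 ≤ C * aVal l t y pu + D * sVal l t y pu) (hl : pl ≤ p) (hu : p ≤ pu) :
    0 ≤ C * aVal l t y p + D * sVal l t y p := by
  have hb := affine_between
    (u := C * ev2 (UP l) t y + D * ((l.W * lamD l.li : ℝ) * y * ev2 SP t y))
    (v := C * ev2 (VP l) t y + D * ((l.W * lamD l.li : ℝ) * ev2 SP t y))
    (a := pl) (b := pu) (p := p)
    (by simp only [aVal, sVal] at h1; linarith) (by simp only [aVal, sVal] at h2; linarith) hl hu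
  simp only [aVal, sVal]
  linarith

theorem up_value {B : Box} {l : Leaf} {a b e m : ℤ} (he : (0 : ℝ) < e) (hm0 : 0 ≤ m)
    (h : nonnegOn B (upP l a b e m) = true) {t y : ℝ} (hm : B.mem t y)
    (hs : 0 ≤ t ^ 2 + y ^ 2 - 1) :
    0 ≤ 2 * (l.cn : ℝ) * l.cd * (1 - t ^ 2) * aVal l t y ((a + b * t) / e) +
      ev2 (rootP l) t y * sVal l t y ((a + b * t) / e) := by
  have h' := drop_sound hm0 h hm hs
  rw [ev2_add2, ev2_mul2, ev2_mul2, ev2_smul2, ev2_qP,
    ev2_aEnd _ _ _ _ _ _ he.ne', ev2_sEnd _ _ _ _ _ _ he.ne'] at h'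
  push_cast at h'
  refine nonneg_of_mul_nonneg_right (a := (e : ℝ)) ?_ he
  linarith

theorem low_value {B : Box} {l : Leaf} {a b e m : ℤ} (he : (0 : ℝ) < e) (hm0 : 0 ≤ m)
    (h : nonnegOn B (lowP l a b e m) = true) {t y : ℝ} (hm : B.mem t y)
    (hs : 0 ≤ t ^ 2 + y ^ 2 - 1) :
    (l.low = true → 0 ≤ ev2 (rootP l) t y * aVal l t y ((a + b * t) / e) +
      2 * (l.cn : ℝ) * l.cd * (1 - y ^ 2) * sVal l t y ((a + b * t) / e)) ∧
    (l.low = false → 0 ≤ 1 * aVal l t y ((a + b * t) / e) +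
      0 * sVal l t y ((a + b * t) / e)) := by
  constructor <;> intro hlw
  · simp only [lowP, hlw, if_true] at h
    have h' := drop_sound hm0 h hm hs
    rw [ev2_add2, ev2_mul2, ev2_mul2, ev2_smul2, ev2_aEnd _ _ _ _ _ _ he.ne',
      ev2_sEnd _ _ _ _ _ _ he.ne'] at h'
    simp only [ev2, ev] at h'
    push_cast at h'
    refine nonneg_of_mul_nonneg_right (a := (e : ℝ)) ?_ he
    linarith
  · simp only [lowP, hlw, Bool.false_eq_true, if_false] at h
    have h' := drop_sound hm0 h hm hs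
    rw [ev2_aEnd _ _ _ _ _ _ he.ne'] at h'
    have := nonneg_of_mul_nonneg_right h' he
    linarith

/-- The endgame: the value at an admissible slope from the two endpoint conditions. -/
theorem endgame {t y k a σ cn cd R : ℝ} (hq : 0 < 1 - t ^ 2) (hcn : 0 < cn) (hcd : 0 < cd)
    (hR : 0 < R) (hk : 0 ≤ k) (hk1 : 2 * cn * cd * (1 - t ^ 2) * k ≤ R)
    (hup : 0 ≤ 2 * cn * cd * (1 - t ^ 2) * a + R * σ)
    (hlo : 0 ≤ a ∨ (0 ≤ R * a + 2 * cn * cd * (1 - y ^ 2) * σ ∧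
      2 * cn * cd * (1 - y ^ 2) ≤ k * R)) :
    0 ≤ a + k * σ := by
  rcases lt_or_ge σ 0 with hneg | hpos
  · have hc2 : 0 < 2 * cn * cd * (1 - t ^ 2) := by positivity
    refine nonneg_of_mul_nonneg_right (a := 2 * cn * cd * (1 - t ^ 2)) ?_ hc2
    nlinarith [mul_le_mul_of_nonpos_right hk1 hneg.le]
  · rcases hlo with ha | ⟨hl, hk2⟩
    · positivity
    · refine nonneg_of_mul_nonneg_right (a := R) ?_ hR
      nlinarith [mul_le_mul_of_nonneg_right hk2 hpos]

/-- Assembly of the pointwise inequality. -/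
theorem assemble {t y p k X φ : ℝ} (hp : √(1 - t ^ 2) = p) (hp2 : p ^ 2 = 1 - t ^ 2)
    (hd : 0 ≤ y - p) (hy : 0 ≤ y + p) (hφ : φ ≤ (4 + 3 * X) / (4 + X))
    (h : 0 ≤ a0 φ t y p + k * ((y + p) * sF t y)) :
    0 ≤ f t y X - Wt t y + k * Wy t y := by
  have hcoef : 0 ≤ (y ^ 2 - p ^ 2) * (2827 / 3200) * (3 / 2) := by
    have : 0 ≤ y ^ 2 - p ^ 2 := by nlinarith
    positivity
  have h1 := mul_le_mul_of_nonneg_left hφ hcoef
  have hsd : t ^ 2 + y ^ 2 - 1 = (y - p) * (y + p) := by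
    rw [show (y - p) * (y + p) = y ^ 2 - p ^ 2 by ring, hp2]; ring
  have hWt : Wt t y = (y - p) * (y + p) * hF t y := by
    rw [← hsd]; simp only [Wt, hF]; ring
  have hWy : Wy t y = (y - p) * (y + p) * sF t y := by
    rw [← hsd]; simp only [Wy, sF]; ring
  have h2 := mul_nonneg hd h
  rw [hWt, hWy]
  simp only [a0] at h2
  simp only [f, hp]
  linarith

theorem checkLeaf_sound {B : Box} {l : Leaf} (hc : checkLeaf B l = true) {t y k X : ℝ}
    (hm : B.mem t y) (ht0 : 0 < t) (ht1 : t < 1) (hyp : √(1 - t ^ 2) ≤ y) (hk : 0 ≤ k)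
    (hks : √(1 + k ^ 2) ≤ y + t * k) (hX0 : 0 ≤ X)
    (hX1 : 3 / 2 * (t * y ^ 2 - ballI t) ≤ X)
    (hX2 : 3 / 2 * (t * (1 + y + y ^ 2) / 3 - ballI t) ≤ X)
    (hX3 : 5 / 13 ≤ t → 3 / 2 * ((t - 5 / 13) * (144 / 169 + 12 / 13 * y + y ^ 2) / 3 -
      (ballI t - ballI (5 / 13))) ≤ X) :
    0 ≤ f t y X - Wt t y + k * Wy t y := by
  have hq : 0 < 1 - t ^ 2 := by nlinarith
  have hp0 : 0 < √(1 - t ^ 2) := sqrt_pos.2 hq
  have hp2 : √(1 - t ^ 2) ^ 2 = 1 - t ^ 2 := sq_sqrt hq.le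
  have hy0 : 0 < y := lt_of_lt_of_le hp0 hyp
  have hs : 0 ≤ t ^ 2 + y ^ 2 - 1 := by nlinarith
  simp only [checkLeaf, Bool.and_eq_true, decide_eq_true_eq] at hc
  obtain ⟨⟨⟨⟨⟨⟨⟨⟨⟨⟨⟨⟨⟨⟨⟨⟨⟨⟨⟨hW, hE⟩, hub⟩, huc⟩, hcn⟩, hcd⟩, hmf⟩, hmp⟩, hmp'⟩, hmm⟩,
    hmm'⟩, hpyth⟩, hli⟩, hlow⟩, clo⟩, csec⟩, cup⟩, cup'⟩, cdn⟩, cdn'⟩ := hc
  have hW' : (0 : ℝ) < (l.W : ℝ) := by exact_mod_cast hW
  have hE' : (0 : ℝ) < (l.E : ℝ) := by exact_mod_cast hE
  have hub' : (0 : ℝ) < (l.ub : ℝ) := by exact_mod_cast hub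
  have huc' : (0 : ℝ) < (l.uc : ℝ) := by exact_mod_cast huc
  have hcn' : (0 : ℝ) < (l.cn : ℝ) := by exact_mod_cast hcn
  have hcd' : (0 : ℝ) < (l.cd : ℝ) := by exact_mod_cast hcd
  have hdL : (0 : ℝ) < (lamD l.li : ℝ) := by exact_mod_cast lamD_pos l.li
  have hli' : l.li = 3 → 5 / 13 ≤ t := by
    intro h3
    clear clo csec cup cup' cdn cdn' 
    have h5 : 5 * (B.D : ℝ) ≤ 13 * (B.ta : ℝ) := by exact_mod_cast hli h3
    obtain ⟨hD, h1, -⟩ := hm
    by_contra hcon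
    nlinarith [mul_lt_mul_of_pos_right (not_le.1 hcon) hD]
  have hLX : lam l.li t y ≤ X := by
    rcases hi : l.li with _ | _ | _ | _ | i
    · simpa [lam] using hX0
    · exact hX1
    · exact hX2
    · exact hX3 (hli' hi)
    · simpa [lam] using hX0
  have hφ := sec_le hW' hmf csec hm hs (lam_gt l.li ht0 ht1 hy0.le hli') hLX
  have hl := lower_profile hE' clo hm hp0.le hp2
  have hu := upper_profile hub' huc' hpyth hp2
  have haval := aVal_eq l hW' (y := y) hp2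
  set K : ℝ := 1600000 * ((l.W : ℝ) * lamD l.li) with hK
  have hKpos : 0 < K := by positivity
  have hsval : sVal l t y (√(1 - t ^ 2)) = K * ((y + √(1 - t ^ 2)) * sF t y) := by
    simp only [sVal, ev2_SP, hK]; ring
  have hR : 0 < ev2 (rootP l) t y := by
    rw [ev2_rootP]; positivity
  obtain ⟨hk1, hk2⟩ := slope_bounds ht0 ht1 hy0.le hs hk hks hcn' hcd'
  rw [← ev2_rootP] at hk1 hk2
  have hup := combine l (up_value hE' hmp cup hm hs) (up_value hub' hmp' cup' hm hs) hl hu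
  rw [haval, hsval] at hup
  refine assemble rfl hp2 (sub_nonneg.2 hyp) (by linarith) hφ
    (endgame (y := y) hq hcn' hcd' hR hk hk1 (nonneg_of_mul_nonneg_right (a := K) (by linarith) hKpos) ?_)
  have hl1 := low_value hE' hmm cdn hm hs
  have hl2 := low_value hub' hmm' cdn' hm hs
  cases hlw : l.low with
  | false =>
    left
    have := combine l (hl1.2 hlw) (hl2.2 hlw) hl hu
    rw [haval, hsval] at this
    exact nonneg_of_mul_nonneg_right (a := K) (by linarith) hKpos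
  | true =>
    right
    have hy1 : y ≤ 1 := by
      have hyb : (B.yb : ℝ) ≤ B.D := by exact_mod_cast hlow hlw
      obtain ⟨hD, -, -, -, h4⟩ := hm
      by_contra hcon
      clear clo csec cup cup' cdn cdn' hl1 hl2
      nlinarith [mul_lt_mul_of_pos_right (not_le.1 hcon) hD]
    have := combine l (hl1.1 hlw) (hl2.1 hlw) hl hu
    rw [haval, hsval] at this
    exact ⟨nonneg_of_mul_nonneg_right (a := K) (by linarith) hKpos, hk2 hy1⟩

theorem checkTree_sound {B : Box} {T : Tree} (hc : checkTree B T = true) {t y k X : ℝ}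
    (hm : B.mem t y) (ht0 : 0 < t) (ht1 : t < 1) (hyp : √(1 - t ^ 2) ≤ y) (hk : 0 ≤ k)
    (hks : √(1 + k ^ 2) ≤ y + t * k) (hX0 : 0 ≤ X)
    (hX1 : 3 / 2 * (t * y ^ 2 - ballI t) ≤ X)
    (hX2 : 3 / 2 * (t * (1 + y + y ^ 2) / 3 - ballI t) ≤ X)
    (hX3 : 5 / 13 ≤ t → 3 / 2 * ((t - 5 / 13) * (144 / 169 + 12 / 13 * y + y ^ 2) / 3 -
      (ballI t - ballI (5 / 13))) ≤ X) :
    0 ≤ f t y X - Wt t y + k * Wy t y := by
  induction T generalizing B with
  | leaf l => exact checkLeaf_sound hc hm ht0 ht1 hyp hk hks hX0 hX1 hX2 hX3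
  | empty =>
    simp only [checkTree, decide_eq_true_eq] at hc
    have hc' : (B.tb : ℝ) * B.tb + (B.yb : ℝ) * B.yb ≤ (B.D : ℝ) * B.D := by exact_mod_cast hc
    obtain ⟨hD, h1, h2, h3, h4⟩ := hm
    exfalso
    have hy0 : 0 ≤ y := le_trans (sqrt_nonneg _) hyp
    have hq : 1 - t ^ 2 ≤ y ^ 2 := (sqrt_le_left hy0).1 hyp
    have e1 : (t * B.D) * (t * B.D) < (B.tb : ℝ) * B.tb :=
      mul_self_lt_mul_self (by positivity) h2
    have e2 : (y * B.D) * (y * B.D) < (B.yb : ℝ) * B.yb :=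
      mul_self_lt_mul_self (by positivity) h4
    nlinarith [mul_le_mul_of_nonneg_right hq (mul_pos hD hD).le]
  | cutT m a b iha ihb =>
    simp only [checkTree, Bool.and_eq_true] at hc
    obtain ⟨hD, h1, h2, h3, h4⟩ := hm
    rcases lt_or_ge (t * B.D) (m : ℝ) with h | h
    · exact iha hc.1 ⟨hD, h1, h, h3, h4⟩
    · exact ihb hc.2 ⟨hD, h, h2, h3, h4⟩
  | cutY m a b iha ihb =>
    simp only [checkTree, Bool.and_eq_true] at hc
    obtain ⟨hD, h1, h2, h3, h4⟩ := hm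
    rcases lt_or_ge (y * B.D) (m : ℝ) with h | h
    · exact iha hc.1 ⟨hD, h1, h2, h3, h⟩
    · exact ihb hc.2 ⟨hD, h1, h2, h, h4⟩

/-- A cut in the first variable passes when both halves pass. -/
theorem cutT_ok {D ta tb ya yb m : ℤ} {a b : Tree} (h1 : checkTree ⟨D, ta, m, ya, yb⟩ a = true)
    (h2 : checkTree ⟨D, m, tb, ya, yb⟩ b = true) :
    checkTree ⟨D, ta, tb, ya, yb⟩ (.cutT m a b) = true := by
  simp [checkTree, h1, h2]

/-- A cut in the second variable passes when both halves pass. -/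
theorem cutY_ok {D ta tb ya yb m : ℤ} {a b : Tree} (h1 : checkTree ⟨D, ta, tb, ya, m⟩ a = true)
    (h2 : checkTree ⟨D, ta, tb, m, yb⟩ b = true) :
    checkTree ⟨D, ta, tb, ya, yb⟩ (.cutY m a b) = true := by
  simp [checkTree, h1, h2]

end Vale.Agent.P237.Four.Checker
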