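import Vale.Agent.P237.Four.Data.CertData0
import Vale.Agent.P237.Four.Data.CertData1
import Vale.Agent.P237.Four.Data.CertData2
import Vale.Agent.P237.Four.Data.CertData3
import Vale.Agent.P237.Four.Data.CertData4
import Vale.Agent.P237.Four.Data.CertData5
import Vale.Agent.P237.Four.Data.CertData6
import Vale.Agent.P237.Four.Data.CertData7
import Vale.Agent.P237.Four.Data.CertData8
import Vale.Agent.P237.Four.Data.CertData9

/-!
The certificate and the terminal sign for dimension four.
-/

namespace Vale.Agent.P237.Four

open Real Checker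

/-- The pointwise certificate of the calibration. -/
theorem certificate : Certificate := by
  intro t y k X ht0 ht1 hyp hy hk hks hX0 hX1 hX2 hX3
  have go : ∀ {a b : ℤ} {T : Tree}, checkTree ⟨25600, a, b, 0, 42497⟩ T = true →
      (a : ℝ) ≤ t * 25600 → t * 25600 < b → 0 ≤ f t y X - Wt t y + k * Wy t y := by
    intro a b T hT ha hb
    refine checkTree_sound hT ⟨?_, ?_, ?_, ?_, ?_⟩ ht0 ht1 hyp hk hks hX0 hX1 hX2 hX3
    all_goals push_cast
    · norm_num
    · exact ha
    · exact hb
    · nlinarith [sqrt_nonneg (1 - t ^ 2)]
    · linarith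
  rcases lt_or_ge (t * 25600) 5120 with h1 | h1
  · exact go strip0_ok (by push_cast; linarith) (by push_cast; linarith)
  rcases lt_or_ge (t * 25600) 9984 with h2 | h2
  · exact go strip1_ok (by push_cast; linarith) (by push_cast; linarith)
  rcases lt_or_ge (t * 25600) 12800 with h3 | h3
  · exact go strip2_ok (by push_cast; linarith) (by push_cast; linarith)
  rcases lt_or_ge (t * 25600) 15360 with h4 | h4
  · exact go strip3_ok (by push_cast; linarith) (by push_cast; linarith)
  rcases lt_or_ge (t * 25600) 17920 with h5 | h5
  · exact go strip4_ok (by push_cast; linarith) (by push_cast; linarith)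
  rcases lt_or_ge (t * 25600) 20480 with h6 | h6
  · exact go strip5_ok (by push_cast; linarith) (by push_cast; linarith)
  rcases lt_or_ge (t * 25600) 23040 with h7 | h7
  · exact go strip6_ok (by push_cast; linarith) (by push_cast; linarith)
  rcases lt_or_ge (t * 25600) 24576 with h8 | h8
  · exact go strip7_ok (by push_cast; linarith) (by push_cast; linarith)
  rcases lt_or_ge (t * 25600) 25344 with h9 | h9
  · exact go strip8_ok (by push_cast; linarith) (by push_cast; linarith)
  · exact go strip9_ok (by push_cast; linarith) (by push_cast; linarith)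

/-- The sign of the calibration at the far end. -/
theorem terminal : Terminal := by
  intro y h0 h1
  simp only [M]
  nlinarith [sq_nonneg (y - 1 / 2), sq_nonneg (y - 1), sq_nonneg (y * (y - 1)),
    sq_nonneg (y * (y - 3 / 2)), mul_nonneg h0 (sq_nonneg (y - 1)),
    mul_nonneg (mul_nonneg h0 h0) (sub_nonneg.2 h1), mul_nonneg h0 (sub_nonneg.2 h1),
    sq_nonneg (y ^ 2 - 2 * y + 1 / 2)]

end Vale.Agent.P237.Four
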