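import Mathlib

/-!
The calibration for the profile lemma in dimension four: the integrand of the bracket and trace
bound, and the polynomial `W` whose derivative along every admissible profile stays below it.
-/

namespace Vale.Agent.P237.Four

open Real

/-- The multiplier of the calibration. -/
noncomputable def M (t y : ℝ) : ℝ :=
  (-47022 * t + 369013 * t * y - 405540 * t * y ^ 2 + 83442 * t * y ^ 3 + 21828 * t * y ^ 4 -
    357406 * t ^ 2 + 98696 * t ^ 2 * y + 361949 * t ^ 2 * y ^ 2 - 160331 * t ^ 2 * y ^ 3 +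
    470771 * t ^ 3 - 610884 * t ^ 3 * y + 145949 * t ^ 3 * y ^ 2 - 6376 * t ^ 4 + 81145 * t ^ 4
    * y - 44993 * t ^ 5) / 100000

/-- The derivative of `M` in `t`. -/
noncomputable def Mt (t y : ℝ) : ℝ :=
  (-47022 + 369013 * y - 405540 * y ^ 2 + 83442 * y ^ 3 + 21828 * y ^ 4 - 714812 * t + 197392
    * t * y + 723898 * t * y ^ 2 - 320662 * t * y ^ 3 + 1412313 * t ^ 2 - 1832652 * t ^ 2 * y +
    437847 * t ^ 2 * y ^ 2 - 25504 * t ^ 3 + 324580 * t ^ 3 * y - 224965 * t ^ 4) / 100000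

/-- The derivative of `M` in `y`. -/
noncomputable def My (t y : ℝ) : ℝ :=
  (369013 * t - 811080 * t * y + 250326 * t * y ^ 2 + 87312 * t * y ^ 3 + 98696 * t ^ 2 +
    723898 * t ^ 2 * y - 480993 * t ^ 2 * y ^ 2 - 610884 * t ^ 3 + 291898 * t ^ 3 * y + 81145 *
    t ^ 4) / 100000

/-- The calibration: it vanishes on the profile of the ball to second order. -/
noncomputable def W (t y : ℝ) : ℝ := (t ^ 2 + y ^ 2 - 1) ^ 2 * M t y

/-- The derivative of `W` in `t`. -/
noncomputable def Wt (t y : ℝ) : ℝ :=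
  4 * t * (t ^ 2 + y ^ 2 - 1) * M t y + (t ^ 2 + y ^ 2 - 1) ^ 2 * Mt t y

/-- The derivative of `W` in `y`. -/
noncomputable def Wy (t y : ℝ) : ℝ :=
  4 * y * (t ^ 2 + y ^ 2 - 1) * M t y + (t ^ 2 + y ^ 2 - 1) ^ 2 * My t y

/-- The squared profile of the ball integrated up to `t`. -/
noncomputable def ballI (t : ℝ) : ℝ := t - t ^ 3 / 3

/-- The pointwise lower bound for the integrand, at the profile value `y` and the relative excess
`X` of the primitive of the squared profile. -/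
noncomputable def f (t y X : ℝ) : ℝ :=
  (y ^ 2 - √(1 - t ^ 2) ^ 2) * (2827 / 3200) * (3 / 2) * ((4 + 3 * X) / (4 + X)) -
    (y ^ 3 - √(1 - t ^ 2) ^ 3) -
    1 / 10 * (5 * t ^ 2 * (y ^ 3 - √(1 - t ^ 2) ^ 3) - (y ^ 5 - √(1 - t ^ 2) ^ 5))

/-- The certificate: at every admissible point and slope `-k`, with any excess `X` above the three
elementary lower bounds, the derivative of `W` along the profile is at most `f`. -/
def Certificate : Prop :=
  ∀ t y k X : ℝ, 0 < t → t < 1 → √(1 - t ^ 2) ≤ y → y ≤ 83 / 50 → 0 ≤ k →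
    √(1 + k ^ 2) ≤ y + t * k → 0 ≤ X →
    3 / 2 * (t * y ^ 2 - ballI t) ≤ X →
    3 / 2 * (t * (1 + y + y ^ 2) / 3 - ballI t) ≤ X →
    (5 / 13 ≤ t → 3 / 2 * ((t - 5 / 13) * (144 / 169 + 12 / 13 * y + y ^ 2) / 3 -
      (ballI t - ballI (5 / 13))) ≤ X) →
    0 ≤ f t y X - Wt t y + k * Wy t y

/-- The sign of the calibration at the far end of a profile. -/
def Terminal : Prop := ∀ y : ℝ, 0 ≤ y → y ≤ 83 / 50 → 0 ≤ M 1 y

theorem hasDerivWithinAt_W {φ : ℝ → ℝ} {φ' t : ℝ} {s : Set ℝ}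
    (h : HasDerivWithinAt φ φ' s t) :
    HasDerivWithinAt (fun x => W x (φ x)) (Wt t (φ t) + φ' * Wy t (φ t)) s t := by
  have hx : HasDerivWithinAt (fun x : ℝ => x) 1 s t := hasDerivWithinAt_id t s
  have hM := (((((((((((((((((hx.pow 1).const_mul (-47022 : ℝ)).add
      (((hx.pow 1).const_mul (369013 : ℝ)).mul (h.pow 1))).add
      (((hx.pow 1).const_mul (-405540 : ℝ)).mul (h.pow 2))).add
      (((hx.pow 1).const_mul (83442 : ℝ)).mul (h.pow 3))).add
      (((hx.pow 1).const_mul (21828 : ℝ)).mul (h.pow 4))).add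
      ((hx.pow 2).const_mul (-357406 : ℝ))).add
      (((hx.pow 2).const_mul (98696 : ℝ)).mul (h.pow 1))).add
      (((hx.pow 2).const_mul (361949 : ℝ)).mul (h.pow 2))).add
      (((hx.pow 2).const_mul (-160331 : ℝ)).mul (h.pow 3))).add
      ((hx.pow 3).const_mul (470771 : ℝ))).add
      (((hx.pow 3).const_mul (-610884 : ℝ)).mul (h.pow 1))).add
      (((hx.pow 3).const_mul (145949 : ℝ)).mul (h.pow 2))).add
      ((hx.pow 4).const_mul (-6376 : ℝ))).add
      (((hx.pow 4).const_mul (81145 : ℝ)).mul (h.pow 1))).add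
      ((hx.pow 5).const_mul (-44993 : ℝ)))).div_const (100000 : ℝ)
  have hQ := ((((hx.pow 2).add (h.pow 2)).sub_const (1 : ℝ)).pow 2).mul hM
  refine (hQ.congr (fun x _ => ?_) ?_).congr_deriv ?_
  · simp only [W, M, Pi.add_apply, Pi.mul_apply, Pi.pow_apply]
    ring
  · simp only [W, M, Pi.add_apply, Pi.mul_apply, Pi.pow_apply]
    ring
  · simp only [M, Wt, Wy, Mt, My, Pi.add_apply, Pi.mul_apply, Pi.pow_apply]
    push_cast
    ring

end Vale.Agent.P237.Four
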