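import Mathlib
import Vale.Agent.P237.Full.Defs
import Vale.Agent.P237.Four.Defs

/-!
The profile lemma in dimension four from the calibration certificate: if `φ` is an even concave
profile above that of the ball with `∫ φ⁵ ≤ 5 ∫ t² φ³`, then
`2048 (∫ φ³)² ≤ 243 π² (∫ φ²)³`, strictly unless the profile has the volume of the ball.
-/

namespace Vale.Agent.P237.Four

open MeasureTheory Set Filter Full
open scoped Topology

/-- The gap of the squared profile to that of the ball. -/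
private noncomputable def gap (φ : ℝ → ℝ) (t : ℝ) : ℝ := φ t ^ 2 - (1 - t ^ 2)

/-- The primitive of the gap. -/
private noncomputable def prim (φ : ℝ → ℝ) (t : ℝ) : ℝ := ∫ s in (0 : ℝ)..t, gap φ s

variable {φ : ℝ → ℝ}

private lemma pro_nonneg (hφ : IsProfile 3 φ) {t : ℝ} (ht : t ∈ Icc (0 : ℝ) 1) : 0 ≤ φ t :=
  (Real.sqrt_nonneg _).trans (hφ.above t ⟨by linarith [ht.1], ht.2⟩)

private lemma pro_anti (hφ : IsProfile 3 φ) {a b : ℝ} (ha : 0 ≤ a) (hab : a ≤ b) (hb : b ≤ 1) :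
    φ b ≤ φ a := by
  rcases (ha.trans hab).eq_or_lt with h0 | h0
  · obtain rfl : a = b := by linarith
    rfl
  have h := hφ.concave.2 (show -b ∈ Icc (-1 : ℝ) 1 from ⟨by linarith, by linarith⟩)
    (show b ∈ Icc (-1 : ℝ) 1 from ⟨by linarith, hb⟩)
    (show 0 ≤ (b - a) / (2 * b) from div_nonneg (by linarith) (by linarith))
    (show 0 ≤ (b + a) / (2 * b) from div_nonneg (by linarith) (by linarith))
    (by field_simp; ring)
  simp only [smul_eq_mul, hφ.even] at h
  rw [show (b - a) / (2 * b) * -b + (b + a) / (2 * b) * b = a by field_simp; ring,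
    ← add_mul, show (b - a) / (2 * b) + (b + a) / (2 * b) = 1 by field_simp; ring, one_mul] at h
  exact h

private lemma pro_cont (hφ : IsProfile 3 φ) : ContinuousOn φ (Ioo (-1) 1) :=
  (hφ.concave.subset Ioo_subset_Icc_self (convex_Ioo _ _)).continuousOn isOpen_Ioo

private lemma intInt_pow (hφ : IsProfile 3 φ) {g : ℝ → ℝ} (hg : Continuous g) (k : ℕ) :
    IntervalIntegrable (fun t => g t * φ t ^ k) volume 0 1 := by
  refine IntervalIntegrable.continuousOn_mul ?_ hg.continuousOn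
  rw [intervalIntegrable_iff_integrableOn_Ioo_of_le zero_le_one]
  refine IntegrableOn.of_bound (by simp) ((((pro_cont hφ).mono fun t ht =>
    ⟨by linarith [ht.1], ht.2⟩).pow k).aestronglyMeasurable measurableSet_Ioo) (φ 0 ^ k) ?_
  filter_upwards [ae_restrict_mem measurableSet_Ioo] with t ht
  rw [Real.norm_eq_abs, abs_pow, abs_of_nonneg (pro_nonneg hφ ⟨ht.1.le, ht.2.le⟩)]
  exact pow_le_pow_left₀ (pro_nonneg hφ ⟨ht.1.le, ht.2.le⟩)
    (pro_anti hφ le_rfl ht.1.le ht.2.le) k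

private lemma gap_nonneg (hφ : IsProfile 3 φ) {t : ℝ} (ht : t ∈ Icc (0 : ℝ) 1) :
    0 ≤ gap φ t := by
  have h := pow_le_pow_left₀ (Real.sqrt_nonneg _) (hφ.above t ⟨by linarith [ht.1], ht.2⟩) 2
  rw [Real.sq_sqrt (by nlinarith [ht.1, ht.2])] at h
  simp only [gap]
  linarith

private lemma intInt_gap (hφ : IsProfile 3 φ) {a b : ℝ} (ha : 0 ≤ a) (hab : a ≤ b) (hb : b ≤ 1) :
    IntervalIntegrable (gap φ) volume a b := by
  have h : IntervalIntegrable (fun t => (1 : ℝ) * φ t ^ 2 - (1 - t ^ 2)) volume 0 1 :=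
    (intInt_pow hφ continuous_const 2).sub (Continuous.intervalIntegrable (by fun_prop) _ _)
  simp only [one_mul] at h
  refine h.mono_set ?_
  rw [uIcc_of_le hab, uIcc_of_le zero_le_one]
  exact Icc_subset_Icc ha hb

/-- An affine minorant on `[a, t]` bounds the primitive from below. -/
private lemma prim_ge_chord (hφ : IsProfile 3 φ) {a t v : ℝ} (ha : 0 ≤ a) (hat : a < t)
    (ht : t ≤ 1) (hv : 0 ≤ v) (hva : v ≤ φ a) :
    (t - a) * (v ^ 2 + v * φ t + φ t ^ 2) / 3 - (ballI t - ballI a) ≤ prim φ t := by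
  have hta : 0 < t - a := by linarith
  have h1 : (∫ s in a..t, ((v + (φ t - v) / (t - a) * (s - a)) ^ 2 - (1 - s ^ 2))) ≤
      ∫ s in a..t, gap φ s := by
    refine intervalIntegral.integral_mono_on hat.le
      (Continuous.intervalIntegrable (by fun_prop) _ _) (intInt_gap hφ ha hat.le ht) fun s hs => ?_
    have w0 : 0 ≤ (t - s) / (t - a) := div_nonneg (by linarith [hs.2]) hta.le
    have w1 : 0 ≤ (s - a) / (t - a) := div_nonneg (by linarith [hs.1]) hta.le
    have h := hφ.concave.2 (show a ∈ Icc (-1 : ℝ) 1 from ⟨by linarith, by linarith⟩)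
      (show t ∈ Icc (-1 : ℝ) 1 from ⟨by linarith, ht⟩) w0 w1 (by field_simp; ring)
    simp only [smul_eq_mul] at h
    rw [show (t - s) / (t - a) * a + (s - a) / (t - a) * t = s by field_simp; ring] at h
    have e : v + (φ t - v) / (t - a) * (s - a) =
        (t - s) / (t - a) * v + (s - a) / (t - a) * φ t := by field_simp; ring
    rw [e]
    have h2 : (t - s) / (t - a) * v + (s - a) / (t - a) * φ t ≤ φ s := by
      have := mul_le_mul_of_nonneg_left hva w0
      linarith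
    have h3 := pow_le_pow_left₀ (add_nonneg (mul_nonneg w0 hv)
      (mul_nonneg w1 (pro_nonneg hφ ⟨by linarith, ht⟩))) h2 2
    simp only [gap]
    linarith
  have h2 : (∫ s in a..t, ((v + (φ t - v) / (t - a) * (s - a)) ^ 2 - (1 - s ^ 2))) =
      (t - a) * (v ^ 2 + v * φ t + φ t ^ 2) / 3 - (ballI t - ballI a) := by
    rw [intervalIntegral.integral_eq_sub_of_hasDerivAt (f := fun s =>
      v ^ 2 * (s - a) + v * ((φ t - v) / (t - a)) * (s - a) ^ 2 +
        ((φ t - v) / (t - a)) ^ 2 * (s - a) ^ 3 / 3 - (s - s ^ 3 / 3))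
      (fun s _ => ?_) (Continuous.intervalIntegrable (by fun_prop) _ _)]
    · simp only [ballI]
      field_simp
      ring
    · have hx := (hasDerivAt_id' s).sub_const a
      exact ((((hx.const_mul (v ^ 2)).add ((hx.pow 2).const_mul (v * ((φ t - v) / (t - a))))).add
        (((hx.pow 3).const_mul (((φ t - v) / (t - a)) ^ 2)).div_const 3)).sub
        ((hasDerivAt_id' s).sub (((hasDerivAt_id' s).pow 3).div_const 3))).congr_deriv
        (by push_cast; ring)
  have h3 : prim φ t = (∫ s in (0 : ℝ)..a, gap φ s) + ∫ s in a..t, gap φ s :=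
    (intervalIntegral.integral_add_adjacent_intervals (intInt_gap hφ le_rfl ha (by linarith))
      (intInt_gap hφ ha hat.le ht)).symm
  have h4 : 0 ≤ ∫ s in (0 : ℝ)..a, gap φ s :=
    intervalIntegral.integral_nonneg ha fun s hs => gap_nonneg hφ ⟨hs.1, by linarith [hs.2]⟩
  linarith

private lemma prim_ge_box (hφ : IsProfile 3 φ) {t : ℝ} (h0 : 0 ≤ t) (ht : t ≤ 1) :
    t * φ t ^ 2 - ballI t ≤ prim φ t := by
  have h1 : (∫ s in (0 : ℝ)..t, (φ t ^ 2 - (1 - s ^ 2))) ≤ ∫ s in (0 : ℝ)..t, gap φ s := by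
    refine intervalIntegral.integral_mono_on h0
      (Continuous.intervalIntegrable (by fun_prop) _ _) (intInt_gap hφ le_rfl h0 ht) fun s hs => ?_
    have := pow_le_pow_left₀ (pro_nonneg hφ ⟨h0, ht⟩) (pro_anti hφ hs.1 hs.2 ht) 2
    simp only [gap]
    linarith
  have h2 : (∫ s in (0 : ℝ)..t, (φ t ^ 2 - (1 - s ^ 2))) = t * φ t ^ 2 - ballI t := by
    rw [intervalIntegral.integral_eq_sub_of_hasDerivAt (f := fun s =>
      s * φ t ^ 2 - (s - s ^ 3 / 3)) (fun s _ => ?_)
      (Continuous.intervalIntegrable (by fun_prop) _ _)]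
    · simp [ballI]
    · exact (((hasDerivAt_id' s).mul_const (φ t ^ 2)).sub
        ((hasDerivAt_id' s).sub (((hasDerivAt_id' s).pow 3).div_const 3))).congr_deriv
        (by push_cast; ring)
  exact h2 ▸ h1

private lemma quint_ge {s y : ℝ} (hs : 0 ≤ s) (hy : 0 ≤ y) :
    -(52 / 5) * s ^ 5 ≤ y ^ 5 - 5 * s ^ 2 * y ^ 3 := by
  rcases le_total (4 * s) y with h | h
  · have h1 : 0 ≤ y ^ 3 * (y ^ 2 - 5 * s ^ 2) := mul_nonneg (by positivity) (by nlinarith)
    nlinarith [pow_nonneg hs 5]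
  · have h1 : 0 ≤ (y - 433 / 250 * s) ^ 2 * (y ^ 3 + 433 / 125 * (s * y ^ 2) + 3 * (s ^ 2 * y)
        + 3 * s ^ 3) := mul_nonneg (sq_nonneg _) (by positivity)
    nlinarith [mul_le_mul_of_nonneg_left h (pow_nonneg hs 4), pow_nonneg hs 5,
      mul_nonneg (pow_nonneg hs 3) (sq_nonneg (y - 433 / 250 * s)),
      mul_nonneg (mul_nonneg (sq_nonneg s) hy) (sq_nonneg (y - 433 / 250 * s))]

private lemma quint_mono {s Y y : ℝ} (hY : 0 ≤ Y) (hs : 3 * s ^ 2 ≤ Y ^ 2) (h : Y ≤ y) :
    Y ^ 5 - 5 * s ^ 2 * Y ^ 3 ≤ y ^ 5 - 5 * s ^ 2 * y ^ 3 := by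
  have hy : 0 ≤ y := hY.trans h
  have h1 : 0 ≤ (y - Y) * (5 / 3 * (Y ^ 2 - 3 * s ^ 2) * (y ^ 2 + y * Y + Y ^ 2)) :=
    mul_nonneg (by linarith) (mul_nonneg (by linarith) (by positivity))
  have h2 : 0 ≤ (y - Y) * (y - Y) * (y ^ 3 + 2 * y ^ 2 * Y + 4 / 3 * y * Y ^ 2 + 2 / 3 * Y ^ 3) :=
    mul_nonneg (mul_nonneg (by linarith) (by linarith)) (by positivity)
  nlinarith

/-- The profile is below `83 / 50`. -/
private lemma pro_cap (hφ : IsProfile 3 φ)
    (hM : (∫ t in (0 : ℝ)..1, φ t ^ 5) ≤ 5 * ∫ t in (0 : ℝ)..1, t ^ 2 * φ t ^ 3) :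
    φ 0 ≤ 83 / 50 := by
  by_contra hc
  push Not at hc
  have i5 : IntervalIntegrable (fun t => φ t ^ 5) volume 0 1 := by
    simpa using intInt_pow hφ (g := fun _ => 1) continuous_const 5
  have i3 : IntervalIntegrable (fun t => t ^ 2 * φ t ^ 3) volume 0 1 :=
    intInt_pow hφ (g := fun t => t ^ 2) (by fun_prop) 3
  have iall := i5.sub (i3.const_mul 5)
  have hsub1 : uIcc (0 : ℝ) (12 / 25) ⊆ uIcc 0 1 := by
    rw [uIcc_of_le (by norm_num), uIcc_of_le zero_le_one]
    exact Icc_subset_Icc le_rfl (by norm_num)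
  have hsub2 : uIcc (12 / 25 : ℝ) 1 ⊆ uIcc 0 1 := by
    rw [uIcc_of_le (by norm_num), uIcc_of_le zero_le_one]
    exact Icc_subset_Icc (by norm_num) le_rfl
  set H : ℝ := 83 / 50 with hH
  have h1 : (∫ s in (0 : ℝ)..12 / 25, (H ^ 5 * (1 - s) ^ 5 - 5 * H ^ 3 * (s ^ 2 * (1 - s) ^ 3))) ≤
      ∫ s in (0 : ℝ)..12 / 25, (φ s ^ 5 - 5 * (s ^ 2 * φ s ^ 3)) := by
    refine intervalIntegral.integral_mono_on (by norm_num)
      (Continuous.intervalIntegrable (by fun_prop) _ _) (iall.mono_set hsub1) fun s hs => ?_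
    have hY : H * (1 - s) ≤ φ s := by
      have h := hφ.concave.2 (show (0 : ℝ) ∈ Icc (-1 : ℝ) 1 by norm_num)
        (show (1 : ℝ) ∈ Icc (-1 : ℝ) 1 by norm_num) (show 0 ≤ 1 - s by linarith [hs.2]) hs.1
        (by ring)
      simp only [smul_eq_mul, mul_zero, mul_one, zero_add] at h
      have h2 := mul_le_mul_of_nonneg_right hc.le (show 0 ≤ 1 - s by linarith [hs.2])
      have h3 := mul_nonneg hs.1 (pro_nonneg hφ (right_mem_Icc.2 zero_le_one))
      linarith
    have hY0 : 0 ≤ H * (1 - s) := mul_nonneg (by norm_num) (by linarith [hs.2])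
    have h3 : 3 * s ^ 2 ≤ (H * (1 - s)) ^ 2 := by
      rw [hH]
      nlinarith [hs.1, hs.2, mul_nonneg hs.1 (sub_nonneg.2 hs.2)]
    have h4 := quint_mono hY0 h3 hY
    rw [mul_pow, mul_pow] at h4
    linarith
  have h2 : (∫ s in (12 / 25 : ℝ)..1, -(52 / 5) * s ^ 5) ≤
      ∫ s in (12 / 25 : ℝ)..1, (φ s ^ 5 - 5 * (s ^ 2 * φ s ^ 3)) := by
    refine intervalIntegral.integral_mono_on (by norm_num)
      (Continuous.intervalIntegrable (by fun_prop) _ _) (iall.mono_set hsub2) fun s hs => ?_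
    have := quint_ge (s := s) (by linarith [hs.1])
      (pro_nonneg hφ ⟨by linarith [hs.1], hs.2⟩)
    linarith
  rw [intervalIntegral.integral_eq_sub_of_hasDerivAt (f := fun s =>
    -(H ^ 5) * (1 - s) ^ 6 / 6 - 5 * H ^ 3 * (s ^ 3 / 3 - 3 * s ^ 4 / 4 + 3 * s ^ 5 / 5 - s ^ 6 / 6))
    (fun s _ => ?_) (Continuous.intervalIntegrable (by fun_prop) _ _)] at h1
  swap
  · have hx := hasDerivAt_id' s
    exact ((((hx.const_sub 1).pow 6).const_mul (-(H ^ 5))).div_const 6 |>.sub
      ((((((hx.pow 3).div_const 3).sub (((hx.pow 4).const_mul 3).div_const 4)).add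
        (((hx.pow 5).const_mul 3).div_const 5)).sub ((hx.pow 6).div_const 6)).const_mul
        (5 * H ^ 3))).congr_deriv (by push_cast; ring)
  rw [intervalIntegral.integral_eq_sub_of_hasDerivAt (f := fun s => -(52 / 30) * s ^ 6)
    (fun s _ => ?_) (Continuous.intervalIntegrable (by fun_prop) _ _)] at h2
  swap
  · exact (((hasDerivAt_id' s).pow 6).const_mul (-(52 / 30))).congr_deriv (by push_cast; ring)
  have h3 := intervalIntegral.integral_add_adjacent_intervals (iall.mono_set hsub1)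
    (iall.mono_set hsub2)
  have h4 : (∫ s in (0 : ℝ)..1, (φ s ^ 5 - 5 * (s ^ 2 * φ s ^ 3))) ≤ 0 := by
    rw [intervalIntegral.integral_sub i5 (i3.const_mul 5), intervalIntegral.integral_const_mul]
    linarith
  rw [hH] at h1
  norm_num at h1 h2
  linarith

/-- The right slope of a profile: it is nonpositive and supports the profile. -/
private lemma exists_slope (hφ : IsProfile 3 φ) {t : ℝ} (h0 : 0 < t) (h1 : t < 1) :
    ∃ d, d ≤ 0 ∧ HasDerivWithinAt φ d (Ioi t) t ∧
      ∀ s ∈ Icc (-1 : ℝ) 1, φ s ≤ φ t + d * (s - t) := by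
  have hg := hφ.concave.neg
  have hi : t ∈ interior (Icc (-1 : ℝ) 1) := by
    rw [interior_Icc]
    exact ⟨by linarith, h1⟩
  have htm : t ∈ Icc (-1 : ℝ) 1 := ⟨by linarith, h1.le⟩
  set D := derivWithin (-φ) (Ioi t) t with hD
  have hdd := hg.hasDerivWithinAt_rightDeriv_of_mem_interior hi
  have hleft : ∀ s ∈ Icc (-1 : ℝ) 1, s < t → slope (-φ) s t ≤ D := fun s hs hst =>
    (hg.slope_le_leftDeriv hs htm hst (hg.differentiableWithinAt_Iio_of_mem_interior hi)).trans
      (hg.leftDeriv_le_rightDeriv_of_mem_interior hi)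
  refine ⟨-D, ?_, by simpa [hD] using hdd.neg, fun s hs => ?_⟩
  · have h := hleft (-t) ⟨by linarith, by linarith⟩ (by linarith)
    rw [slope_def_field, Pi.neg_apply, Pi.neg_apply, hφ.even, sub_self, zero_div] at h
    linarith
  · rcases lt_trichotomy s t with hst | rfl | hst
    · have h := hleft s hs hst
      rw [slope_def_field, Pi.neg_apply, Pi.neg_apply, div_le_iff₀ (sub_pos.2 hst)] at h
      linarith
    · simp
    · have h := hg.rightDeriv_le_slope_of_mem_interior hi hs hst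
      rw [← hD, slope_def_field, Pi.neg_apply, Pi.neg_apply, le_div_iff₀ (sub_pos.2 hst)] at h
      linarith

private lemma integral_ball :
    (∫ t in (0 : ℝ)..1, √(1 - t ^ 2) ^ 3) = 3 * Real.pi / 16 ∧
      (∫ t in (0 : ℝ)..1, √(1 - t ^ 2) ^ 5) = 5 * ∫ t in (0 : ℝ)..1, t ^ 2 * √(1 - t ^ 2) ^ 3 := by
  have hp : Continuous fun t : ℝ => √(1 - t ^ 2) := by fun_prop
  have hd : ∀ t ∈ Ioo (0 : ℝ) 1,
      HasDerivAt (fun t => √(1 - t ^ 2)) (-t / √(1 - t ^ 2)) t := fun t ht => by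
    have h := (((hasDerivAt_id' t).pow 2).const_sub 1).sqrt
      (by simp only [Pi.pow_apply]; nlinarith [ht.1, ht.2])
    refine h.congr_deriv ?_
    simp only [Pi.pow_apply]
    push_cast
    field_simp
  have key : ∀ k : ℕ, (∫ t in (0 : ℝ)..1,
      (√(1 - t ^ 2) ^ (k + 3) - ((k : ℝ) + 3) * (t ^ 2 * √(1 - t ^ 2) ^ (k + 1)))) = 0 := fun k => by
    rw [intervalIntegral.integral_eq_sub_of_hasDerivAt_of_le zero_le_one
      (f := fun t => t * √(1 - t ^ 2) ^ (k + 3))
      ((continuous_id.mul (hp.pow _)).continuousOn) (fun t ht => ?_)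
      (Continuous.intervalIntegrable (by fun_prop) _ _)]
    · simp
    · have hq : 0 < √(1 - t ^ 2) := Real.sqrt_pos.2 (by nlinarith [ht.1, ht.2])
      refine ((hasDerivAt_id' t).mul ((hd t ht).pow (k + 3))).congr_deriv ?_
      rw [show k + 3 - 1 = k + 2 by omega]
      simp only [Pi.pow_apply]
      push_cast
      field_simp
      ring
  have i1 : ∀ k : ℕ, IntervalIntegrable (fun t => √(1 - t ^ 2) ^ k) volume (0 : ℝ) 1 :=
    fun k => Continuous.intervalIntegrable (by fun_prop) _ _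
  have i2 : ∀ k : ℕ, IntervalIntegrable (fun t => t ^ 2 * √(1 - t ^ 2) ^ k) volume (0 : ℝ) 1 :=
    fun k => Continuous.intervalIntegrable (by fun_prop) _ _
  have k0 := key 0
  have k2 := key 2
  rw [intervalIntegral.integral_sub (i1 _) ((i2 _).const_mul _),
    intervalIntegral.integral_const_mul] at k0 k2
  norm_num at k0 k2
  have hP : (∫ t in (0 : ℝ)..1, √(1 - t ^ 2)) = Real.pi / 4 := by
    have hneg : (∫ t in (-1 : ℝ)..0, √(1 - t ^ 2)) = ∫ t in (0 : ℝ)..1, √(1 - t ^ 2) := by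
      have h := intervalIntegral.integral_comp_neg (fun t : ℝ => √(1 - t ^ 2)) (a := -1) (b := 0)
      simpa using h
    have hadd := intervalIntegral.integral_add_adjacent_intervals
      (hp.intervalIntegrable (μ := volume) (-1) 0) (hp.intervalIntegrable (μ := volume) 0 1)
    rw [hneg, integral_sqrt_one_sub_sq] at hadd
    linarith
  have h3 : (∫ t in (0 : ℝ)..1, √(1 - t ^ 2) ^ 3) =
      ∫ t in (0 : ℝ)..1, (√(1 - t ^ 2) - t ^ 2 * √(1 - t ^ 2)) := by
    refine intervalIntegral.integral_congr fun t ht => ?_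
    rw [uIcc_of_le zero_le_one] at ht
    have hs := Real.sq_sqrt (show (0 : ℝ) ≤ 1 - t ^ 2 by nlinarith [ht.1, ht.2])
    linear_combination √(1 - t ^ 2) * hs
  rw [intervalIntegral.integral_sub (hp.intervalIntegrable 0 1)
    (by simpa using i2 1), hP] at h3
  refine ⟨by linarith, by linarith⟩

/-- The root of the relative excess of the primitive. -/
private noncomputable def root (φ : ℝ → ℝ) (t : ℝ) : ℝ := √(1 + 3 / 2 * prim φ t)

/-- The slack in the constant `27 π / 64`. -/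
private noncomputable def slack : ℝ := 27 * Real.pi / 64 - 2827 / 3200 * (3 / 2)

/-- The integrand: its integral is at most the deficit of the profile lemma. -/
private noncomputable def total (φ : ℝ → ℝ) (t : ℝ) : ℝ :=
  3 * Real.pi / 16 * (9 / 4 * (gap φ t * root φ t)) - (φ t ^ 3 - √(1 - t ^ 2) ^ 3) -
    1 / 10 * (5 * (t ^ 2 * φ t ^ 3 - t ^ 2 * √(1 - t ^ 2) ^ 3) -
      (φ t ^ 5 - √(1 - t ^ 2) ^ 5)) - slack * gap φ t

private lemma slack_pos : 0 < slack := by
  have h4 : (3.1415 : ℝ) < Real.pi := Real.pi_gt_d4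
  norm_num at h4
  simp only [slack]
  linarith

private lemma prim_nonneg (hφ : IsProfile 3 φ) {t : ℝ} (ht : t ∈ Icc (0 : ℝ) 1) :
    0 ≤ prim φ t :=
  intervalIntegral.integral_nonneg ht.1 fun _ hs => gap_nonneg hφ ⟨hs.1, hs.2.trans ht.2⟩

private lemma prim_cont (hφ : IsProfile 3 φ) : ContinuousOn (prim φ) (Icc 0 1) := by
  have := intervalIntegral.continuousOn_primitive_interval'
    (intInt_gap hφ le_rfl zero_le_one le_rfl) left_mem_uIcc
  rwa [uIcc_of_le zero_le_one] at this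

private lemma root_cont (hφ : IsProfile 3 φ) : ContinuousOn (root φ) (Icc 0 1) :=
  (continuousOn_const.add (continuousOn_const.mul (prim_cont hφ))).sqrt

private lemma integral_root (hφ : IsProfile 3 φ) :
    (∫ t in (0 : ℝ)..1, 9 / 4 * (gap φ t * root φ t)) = root φ 1 ^ 3 - 1 := by
  have ig := intInt_gap hφ le_rfl zero_le_one le_rfl
  rw [intervalIntegral.integral_eq_sub_of_hasDerivAt_of_le zero_le_one
    (f := fun t => root φ t ^ 3) ((root_cont hφ).pow 3) (fun t ht => ?_)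
    ((ig.mul_continuousOn (by rw [uIcc_of_le zero_le_one]; exact root_cont hφ)).const_mul _)]
  · simp [root, prim]
  · have hgc : ContinuousOn (gap φ) (Ioo 0 1) :=
      (((pro_cont hφ).mono fun t ht => ⟨by linarith [ht.1], ht.2⟩).pow 2).sub
        (Continuous.continuousOn (by fun_prop))
    have hF : HasDerivAt (prim φ) (gap φ t) t :=
      intervalIntegral.integral_hasDerivAt_right (intInt_gap hφ le_rfl ht.1.le ht.2.le)
        (hgc.stronglyMeasurableAtFilter isOpen_Ioo t ht)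
        (hgc.continuousAt (isOpen_Ioo.mem_nhds ht))
    have hpos : 0 < 1 + 3 / 2 * prim φ t := by
      linarith [prim_nonneg hφ (Ioo_subset_Icc_self ht)]
    refine ((((hF.const_mul (3 / 2)).const_add 1).sqrt hpos.ne').pow 3).congr_deriv ?_
    have hs := Real.sqrt_pos.2 hpos
    simp only [root]
    push_cast
    field_simp
    ring

private lemma slope_above (hφ : IsProfile 3 φ) {x d : ℝ} (hd0 : d ≤ 0)
    (hsupp : ∀ s ∈ Icc (-1 : ℝ) 1, φ s ≤ φ x + d * (s - x)) :
    √(1 + (-d) ^ 2) ≤ φ x + x * -d := by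
  set R := √(1 + (-d) ^ 2) with hR
  have hR0 : 0 < R := Real.sqrt_pos.2 (by positivity)
  have hR2 : R ^ 2 = 1 + (-d) ^ 2 := Real.sq_sqrt (by positivity)
  have hsR : -d / R ≤ 1 := by
    rw [div_le_one hR0]
    nlinarith
  have hs0 : 0 ≤ -d / R := div_nonneg (by linarith) hR0.le
  have h1 := hφ.above (-d / R) ⟨by linarith, hsR⟩
  have h2 := hsupp (-d / R) ⟨by linarith, hsR⟩
  have e : √(1 - (-d / R) ^ 2) = 1 / R := by
    rw [show 1 - (-d / R) ^ 2 = (1 / R) ^ 2 by field_simp; linarith [hR2],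
      Real.sqrt_sq (by positivity)]
  rw [e] at h1
  have h3 := h1.trans h2
  have e2 : R = 1 / R + -d * (-d / R) := by field_simp; linarith [hR2]
  linarith

private lemma f_le_total (hφ : IsProfile 3 φ) {x : ℝ} (hx : x ∈ Icc (0 : ℝ) 1) :
    f x (φ x) (3 / 2 * prim φ x) ≤ total φ x := by
  have hg := gap_nonneg hφ hx
  have hX0 : 0 ≤ 3 / 2 * prim φ x := by linarith [prim_nonneg hφ hx]
  have hS1 : (4 + 3 * (3 / 2 * prim φ x)) / (4 + 3 / 2 * prim φ x) ≤ root φ x := by
    refine Real.le_sqrt_of_sq_le ?_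
    rw [div_pow, div_le_iff₀ (by positivity)]
    nlinarith [pow_nonneg hX0 3, mul_nonneg hX0 hX0]
  have hS0 : 1 ≤ root φ x := Real.one_le_sqrt.2 (by linarith)
  have hp2 : √(1 - x ^ 2) ^ 2 = 1 - x ^ 2 := Real.sq_sqrt (by nlinarith [hx.1, hx.2])
  have h1 := mul_le_mul_of_nonneg_left hS1
    (mul_nonneg hg (show (0 : ℝ) ≤ 2827 / 3200 * (3 / 2) by norm_num))
  have h2 := mul_le_mul_of_nonneg_left hS0 (mul_nonneg slack_pos.le hg)
  have e : 3 * Real.pi / 16 * (9 / 4 * (gap φ x * root φ x)) =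
      gap φ x * (2827 / 3200 * (3 / 2)) * root φ x + slack * gap φ x * root φ x := by
    simp only [slack]
    ring
  simp only [f, total, hp2, gap] at h1 h2 e ⊢
  linarith

private lemma deriv_le (hC : Certificate) (hφ : IsProfile 3 φ) (hcap : φ 0 ≤ 83 / 50) {x d : ℝ}
    (hx : x ∈ Ioo (0 : ℝ) 1) (hd0 : d ≤ 0)
    (hsupp : ∀ s ∈ Icc (-1 : ℝ) 1, φ s ≤ φ x + d * (s - x)) :
    Wt x (φ x) + d * Wy x (φ x) ≤ total φ x := by
  have hxI := Ioo_subset_Icc_self hx
  have hX0 : 0 ≤ 3 / 2 * prim φ x := by linarith [prim_nonneg hφ hxI]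
  have hb0 : ballI 0 = 0 := by simp [ballI]
  have c1 := prim_ge_box hφ hx.1.le hx.2.le
  have c2 := prim_ge_chord hφ (a := 0) (v := 1) le_rfl hx.1 hx.2.le zero_le_one
    (by simpa using hφ.above 0 (by norm_num))
  rw [hb0] at c2
  have cert := hC x (φ x) (-d) (3 / 2 * prim φ x) hx.1 hx.2
    (hφ.above x ⟨by linarith [hx.1], hx.2.le⟩) ((pro_anti hφ le_rfl hx.1.le hx.2.le).trans hcap)
    (by linarith) (slope_above hφ hd0 hsupp) hX0 (by linarith) (by linarith) (fun hx5 => by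
      rcases hx5.eq_or_lt with rfl | hlt
      · simp only [sub_self, zero_mul, zero_div, mul_zero]
        exact hX0
      have hs : √(1 - (5 / 13 : ℝ) ^ 2) = 12 / 13 := by
        rw [show (1 : ℝ) - (5 / 13) ^ 2 = (12 / 13) ^ 2 by norm_num,
          Real.sqrt_sq (by norm_num)]
      have := prim_ge_chord hφ (a := 5 / 13) (v := 12 / 13) (by norm_num) hlt hx.2.le
        (by norm_num) (hs ▸ hφ.above (5 / 13) (by norm_num))
      linarith)
  linarith [f_le_total hφ hxI]

private lemma intInt_total (hφ : IsProfile 3 φ) : IntervalIntegrable (total φ) volume 0 1 := by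
  have ig := intInt_gap hφ le_rfl zero_le_one le_rfl
  have i3 := intInt_pow hφ (g := fun _ => 1) continuous_const 3
  have i5 := intInt_pow hφ (g := fun _ => 1) continuous_const 5
  simp only [one_mul] at i3 i5
  exact ((((ig.mul_continuousOn (by rw [uIcc_of_le zero_le_one]; exact root_cont hφ)).const_mul
    (9 / 4)).const_mul _).sub (i3.sub (Continuous.intervalIntegrable (by fun_prop) _ _))).sub
    ((((intInt_pow hφ (g := fun t => t ^ 2) (by fun_prop) 3).sub
      (Continuous.intervalIntegrable (by fun_prop) _ _)).const_mul 5).sub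
      (i5.sub (Continuous.intervalIntegrable (by fun_prop) _ _)) |>.const_mul _) |>.sub
    (ig.const_mul slack)

private lemma calib (hC : Certificate) (hφ : IsProfile 3 φ) (hcap : φ 0 ≤ 83 / 50) {b : ℝ}
    (hb : b ∈ Ioo (0 : ℝ) 1) : W b (φ b) ≤ ∫ t in (0 : ℝ)..b, total φ t := by
  have hcont : ContinuousOn (fun x => W x (φ x)) (Icc 0 b) := by
    have hcb : ContinuousOn φ (Icc 0 b) :=
      (pro_cont hφ).mono fun t ht => ⟨by linarith [ht.1], by linarith [ht.2, hb.2]⟩
    unfold W M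
    fun_prop
  have key := intervalIntegral.sub_le_integral_of_hasDeriv_right_of_le
    (g := fun x => W x (φ x))
    (g' := fun x => Wt x (φ x) + derivWithin φ (Ioi x) x * Wy x (φ x))
    (φ := total φ) hb.1.le hcont ?_
    ((intervalIntegrable_iff_integrableOn_Icc_of_le hb.1.le).1 ((intInt_total hφ).mono_set (by
      rw [uIcc_of_le hb.1.le, uIcc_of_le zero_le_one]
      exact Icc_subset_Icc le_rfl hb.2.le))) ?_
  · have h0 : W 0 (φ 0) = 0 := by simp [W, M]
    simpa [h0] using key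
  · intro x hx
    obtain ⟨d, -, hd, -⟩ := exists_slope hφ hx.1 (hx.2.trans hb.2)
    rw [hd.derivWithin (uniqueDiffWithinAt_Ioi x)]
    exact hasDerivWithinAt_W hd
  · intro x hx
    obtain ⟨d, hd0, hd, hsupp⟩ := exists_slope hφ hx.1 (hx.2.trans hb.2)
    rw [hd.derivWithin (uniqueDiffWithinAt_Ioi x)]
    exact deriv_le hC hφ hcap ⟨hx.1, hx.2.trans hb.2⟩ hd0 hsupp

private lemma continuous_W : Continuous fun q : ℝ × ℝ => W q.1 q.2 := by
  unfold W M
  fun_prop

private lemma total_nonneg (hC : Certificate) (hT : Terminal) (hφ : IsProfile 3 φ)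
    (hcap : φ 0 ≤ 83 / 50) : 0 ≤ ∫ t in (0 : ℝ)..1, total φ t := by
  -- passage to the end point
  obtain ⟨L, hL0, hL1, hL⟩ : ∃ L, 0 ≤ L ∧ L ≤ 83 / 50 ∧ Tendsto φ (𝓝[<] 1) (𝓝 L) := by
    have hmono : MonotoneOn (fun t => -φ t) (Ioo 0 1) := fun a ha b hb hab =>
      neg_le_neg (pro_anti hφ ha.1.le hab hb.2.le)
    have hbdd : BddAbove ((fun t => -φ t) '' Ioo 0 1) := ⟨0, by
      rintro _ ⟨t, ht, rfl⟩
      exact neg_nonpos.2 (pro_nonneg hφ (Ioo_subset_Icc_self ht))⟩
    have h1 := (hmono.tendsto_nhdsWithin_Ioo_left (by norm_num) hbdd).neg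
    simp only [neg_neg] at h1
    refine ⟨_, ?_, ?_, h1⟩
    · refine ge_of_tendsto h1 ?_
      filter_upwards [Ioo_mem_nhdsLT (zero_lt_one (α := ℝ))] with t ht
      exact pro_nonneg hφ (Ioo_subset_Icc_self ht)
    · refine le_of_tendsto h1 ?_
      filter_upwards [Ioo_mem_nhdsLT (zero_lt_one (α := ℝ))] with t ht
      exact (pro_anti hφ le_rfl ht.1.le ht.2.le).trans hcap
  have h1 : Tendsto (fun b => W b (φ b)) (𝓝[<] 1) (𝓝 (W 1 L)) :=
    Filter.Tendsto.comp (g := fun q : ℝ × ℝ => W q.1 q.2) (f := fun b => (b, φ b))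
      (y := 𝓝 ((1 : ℝ), L)) (continuous_W.tendsto _)
      (Filter.Tendsto.prodMk_nhds (tendsto_id.mono_left nhdsWithin_le_nhds) hL)
  have hJc := intervalIntegral.continuousOn_primitive_interval' (intInt_total hφ) left_mem_uIcc
  rw [uIcc_of_le zero_le_one] at hJc
  have h2 : Tendsto (fun b => ∫ t in (0 : ℝ)..b, total φ t) (𝓝[<] 1)
      (𝓝 (∫ t in (0 : ℝ)..1, total φ t)) :=
    (hJc 1 (right_mem_Icc.2 zero_le_one)).mono_left
      (nhdsWithin_le_iff.2 (Icc_mem_nhdsLT zero_lt_one))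
  refine le_trans ?_ (le_of_tendsto_of_tendsto h1 h2 ?_)
  · exact mul_nonneg (sq_nonneg _) (hT L hL0 hL1)
  · filter_upwards [Ioo_mem_nhdsLT (zero_lt_one (α := ℝ))] with b hb'
    exact calib hC hφ hcap hb'

/-- The profile lemma in dimension four. -/
theorem profile_four (hC : Certificate) (hT : Terminal) (hφ : IsProfile 3 φ)
    (hM : (∫ t in (0 : ℝ)..1, φ t ^ 5) ≤ 5 * ∫ t in (0 : ℝ)..1, t ^ 2 * φ t ^ 3) :
    2048 * (∫ t in (0 : ℝ)..1, φ t ^ 3) ^ 2 ≤
        243 * Real.pi ^ 2 * (∫ t in (0 : ℝ)..1, φ t ^ 2) ^ 3 ∧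
      (3 * Real.pi / 16 < (∫ t in (0 : ℝ)..1, φ t ^ 3) →
        2048 * (∫ t in (0 : ℝ)..1, φ t ^ 3) ^ 2 <
          243 * Real.pi ^ 2 * (∫ t in (0 : ℝ)..1, φ t ^ 2) ^ 3) := by
  have hend := total_nonneg hC hT hφ (pro_cap hφ hM)
  have ig : IntervalIntegrable (gap φ) volume 0 1 := intInt_gap hφ le_rfl zero_le_one le_rfl
  have i2 : IntervalIntegrable (fun t => φ t ^ 2) volume 0 1 := by
    simpa using intInt_pow hφ (g := fun _ => 1) continuous_const 2
  have i3 : IntervalIntegrable (fun t => φ t ^ 3) volume 0 1 := by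
    simpa using intInt_pow hφ (g := fun _ => 1) continuous_const 3
  have i5 : IntervalIntegrable (fun t => φ t ^ 5) volume 0 1 := by
    simpa using intInt_pow hφ (g := fun _ => 1) continuous_const 5
  have i23 : IntervalIntegrable (fun t => t ^ 2 * φ t ^ 3) volume 0 1 :=
    intInt_pow hφ (g := fun t => t ^ 2) (by fun_prop) 3
  have p3 : IntervalIntegrable (fun t : ℝ => √(1 - t ^ 2) ^ 3) volume 0 1 :=
    Continuous.intervalIntegrable (by fun_prop) _ _
  have p5 : IntervalIntegrable (fun t : ℝ => √(1 - t ^ 2) ^ 5) volume 0 1 :=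
    Continuous.intervalIntegrable (by fun_prop) _ _
  have p23 : IntervalIntegrable (fun t : ℝ => t ^ 2 * √(1 - t ^ 2) ^ 3) volume 0 1 :=
    Continuous.intervalIntegrable (by fun_prop) _ _
  have iS : IntervalIntegrable (fun t => 9 / 4 * (gap φ t * root φ t)) volume 0 1 :=
    (ig.mul_continuousOn (by rw [uIcc_of_le zero_le_one]; exact root_cont hφ)).const_mul _
  have iA := (iS.const_mul (3 * Real.pi / 16)).sub (i3.sub p3)
  have iB := (((i23.sub p23).const_mul 5).sub (i5.sub p5)).const_mul (1 / 10)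
  obtain ⟨hb3, hb5⟩ := integral_ball
  have hgap1 : (∫ t in (0 : ℝ)..1, gap φ t) = (∫ t in (0 : ℝ)..1, φ t ^ 2) - 2 / 3 := by
    simp only [gap]
    rw [intervalIntegral.integral_sub i2 (Continuous.intervalIntegrable (by fun_prop) _ _)]
    norm_num [intervalIntegral.integral_sub, integral_pow]
  simp only [total] at hend
  rw [intervalIntegral.integral_sub (iA.sub iB) (ig.const_mul slack),
    intervalIntegral.integral_sub iA iB,
    intervalIntegral.integral_sub (iS.const_mul _) (i3.sub p3),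
    intervalIntegral.integral_const_mul, intervalIntegral.integral_const_mul,
    intervalIntegral.integral_const_mul,
    intervalIntegral.integral_sub ((i23.sub p23).const_mul 5) (i5.sub p5),
    intervalIntegral.integral_const_mul, intervalIntegral.integral_sub i23 p23,
    intervalIntegral.integral_sub i5 p5, intervalIntegral.integral_sub i3 p3, hb3, hb5,
    intervalIntegral.integral_const_mul, hgap1] at hend
  have hR := integral_root hφ
  rw [intervalIntegral.integral_const_mul] at hR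
  rw [hR] at hend
  set P := ∫ t in (0 : ℝ)..1, φ t ^ 2 with hP
  set V := ∫ t in (0 : ℝ)..1, φ t ^ 3 with hV
  have hprim1 : prim φ 1 = P - 2 / 3 := hgap1
  have hP0 : 2 / 3 ≤ P := by linarith [prim_nonneg hφ (right_mem_Icc.2 zero_le_one)]
  have hS2 : root φ 1 ^ 2 = 3 / 2 * P := by
    simp only [root, hprim1]
    rw [Real.sq_sqrt (by linarith)]
    ring
  have hV0 : 0 ≤ V := intervalIntegral.integral_nonneg zero_le_one
    fun t ht => pow_nonneg (pro_nonneg hφ ht) 3
  have hmain : V + slack * (P - 2 / 3) ≤ 3 * Real.pi / 16 * root φ 1 ^ 3 := by linarith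
  have e : (3 * Real.pi / 16 * root φ 1 ^ 3) ^ 2 = 243 * Real.pi ^ 2 * P ^ 3 / 2048 := by
    rw [mul_pow, show (root φ 1 ^ 3) ^ 2 = (root φ 1 ^ 2) ^ 3 by ring, hS2]
    ring
  have hcP : 0 ≤ slack * (P - 2 / 3) := mul_nonneg slack_pos.le (by linarith)
  refine ⟨?_, fun hV3 => ?_⟩
  · have := pow_le_pow_left₀ hV0 (show V ≤ 3 * Real.pi / 16 * root φ 1 ^ 3 by linarith) 2
    rw [e] at this
    linarith
  · rcases hP0.eq_or_lt with hP2 | hP2
    · have h1 : root φ 1 = 1 := by simp [root, hprim1, ← hP2]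
      rw [h1, ← hP2] at hmain
      linarith
    · have h1 : V < 3 * Real.pi / 16 * root φ 1 ^ 3 := by
        linarith [mul_pos slack_pos (sub_pos.2 hP2)]
      have := pow_lt_pow_left₀ h1 hV0 two_ne_zero
      rw [e] at this
      linarith

end Vale.Agent.P237.Four
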