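import Vale.Agent.P237.Full.Adapters
import Vale.Agent.P237.Full.Lemma3
import Vale.Agent.P237.Asym.Final
import Vale.Agent.P237.Four.Core

/-!
Petty's projection-volume inequality with its equality clause in dimensions three and four, from
the calibration certificate.
-/

namespace Vale.Agent.P237.Four

open MeasureTheory Set Metric Full
open scoped ENNReal

/-- For `n` equal to `3` or `4` and every convex body `K` of `n`-space,
`κ_(n-1) ^ n |K| ^ (n-1) ≤ κ_n ^ (n-2) |Π K|`, with equality exactly for ellipsoids. -/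
theorem petty_le_four (hC : Certificate) (hT : Terminal) (n : ℕ) (hn : n = 3 ∨ n = 4)
    (K : Set (EuclideanSpace ℝ (Fin n))) (hK : Convex ℝ K) (cK : IsCompact K)
    (iK : (interior K).Nonempty) :
    unitBallVolume (n - 1) ^ n * volume K ^ (n - 1) ≤
        unitBallVolume n ^ (n - 2) * volume (projBody K) ∧
      (unitBallVolume (n - 1) ^ n * volume K ^ (n - 1) =
          unitBallVolume n ^ (n - 2) * volume (projBody K) ↔
        ∃ (a : EuclideanSpace ℝ (Fin n))
          (T : EuclideanSpace ℝ (Fin n) ≃L[ℝ] EuclideanSpace ℝ (Fin n)),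
          K = (fun x => x + a) '' (T '' closedBall 0 1)) := by
  have hb : IsBody K := ⟨hK, cK, iK⟩
  have h := petty_full petty_two (fun k hk => inputs hk) (n := n) (by omega) (fun k hk hk' => by
    rcases (show k = 3 ∨ k = 4 by omega) with rfl | rfl
    · exact contactBound_three
    · exact contactBound_four hC hT) K hb
  have hP : volume (projBody K) ≠ ⊤ := (isBody_projBody (by omega) hb).2.1.measure_ne_top
  have n2 : ENNReal.ofReal (kappa (n - 1)) ^ n * volume K ^ (n - 1) ≠ ⊤ :=
    ENNReal.mul_ne_top (ENNReal.pow_ne_top ENNReal.ofReal_ne_top)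
      (ENNReal.pow_ne_top cK.measure_ne_top)
  have n3 : ENNReal.ofReal (kappa n) ^ (n - 2) * volume (projBody K) ≠ ⊤ :=
    ENNReal.mul_ne_top (ENNReal.pow_ne_top ENNReal.ofReal_ne_top) hP
  rw [Asym.unitBallVolume_eq' _ (by omega), Asym.unitBallVolume_eq' _ (by omega),
    ← ENNReal.toReal_le_toReal n2 n3, ← ENNReal.toReal_eq_toReal_iff' n2 n3]
  simpa only [ENNReal.toReal_mul, ENNReal.toReal_pow, ENNReal.toReal_ofReal (kappa_pos _).le]
    using h

end Vale.Agent.P237.Four
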